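import Vale.Agent.Lib.P302.Frac

/-!
# P302: adding items of size one
-/

namespace Vale.Agent.Lib.P302

/-- The instance with one more item, of size `1`. -/
def addOne (I : Inst) : Inst where
  n := I.n + 1
  size := Fin.cons 1 I.size
  pos := fun i => by
    refine Fin.cases ?_ (fun j => ?_) i
    · simp
    · simpa using I.pos j
  le_one := fun i => by
    refine Fin.cases ?_ (fun j => ?_) i
    · simp
    · simpa using I.le_one j

theorem packing_nonempty (I : Inst) :
    {k | ∃ p : Fin I.n → Fin k, IsPacking I k p}.Nonempty := by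
  refine ⟨I.n, id, ?_⟩
  intro j
  have e : (Finset.univ.filter (fun i : Fin I.n => id i = j)) = {j} := by
    ext i; simp
  rw [e, Finset.sum_singleton]
  exact I.le_one j

theorem addOne_sum (I : Inst) (P : Fin (I.n + 1) → Prop) [DecidablePred P] :
    ∑ i ∈ (Finset.univ : Finset (Fin (I.n + 1))).filter P, (Fin.cons 1 I.size : Fin (I.n + 1) → ℚ) i
      = (if P 0 then 1 else 0)
        + ∑ i ∈ (Finset.univ : Finset (Fin I.n)).filter (fun i => P i.succ), I.size i := by
  rw [Finset.sum_filter, Finset.sum_filter, Fin.sum_univ_succ]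
  simp [addOne]

theorem OPT_addOne_ge (I : Inst) : OPT I + 1 ≤ OPT (addOne I) := by
  classical
  have h := Nat.sInf_mem (packing_nonempty (addOne I))
  obtain ⟨p, hp⟩ := h
  change OPT I + 1 ≤ sInf {k | ∃ p : Fin (addOne I).n → Fin k, IsPacking (addOne I) k p}
  revert p hp
  generalize sInf {k | ∃ p : Fin (addOne I).n → Fin k, IsPacking (addOne I) k p} = k
  intro p hp
  change Fin (I.n + 1) → Fin k at p
  match k, p, hp with
  | 0, p, _ => exact (p 0).elim0
  | k + 1, p, hp =>
    have hne : ∀ i : Fin I.n, p i.succ ≠ p 0 := by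
      intro i hi
      have h1 := hp (p 0)
      have h2 := addOne_sum I (fun i => p i = p 0)
      have h3 : I.size i ≤ ∑ i ∈ (Finset.univ : Finset (Fin I.n)).filter
          (fun i => p i.succ = p 0), I.size i := by
        apply Finset.single_le_sum (f := I.size) (fun i _ => (I.pos i).le)
        simp [hi]
      have h4 := I.pos i
      rw [if_pos rfl] at h2
      have h5 : ∑ i ∈ (Finset.univ : Finset (Fin (I.n + 1))).filter (fun i => p i = p 0),
          (Fin.cons 1 I.size : Fin (I.n + 1) → ℚ) i ≤ 1 := h1
      rw [h2] at h5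
      linarith
    choose q hq using fun i => Fin.exists_succAbove_eq (hne i)
    have : OPT I ≤ k := by
      apply Nat.sInf_le
      refine ⟨q, ?_⟩
      intro j
      have h1 : ∑ i ∈ (Finset.univ : Finset (Fin (I.n + 1))).filter
          (fun i => p i = (p 0).succAbove j), (Fin.cons 1 I.size : Fin (I.n + 1) → ℚ) i ≤ 1 := hp _
      rw [addOne_sum I (fun i => p i = (p 0).succAbove j)] at h1
      have h2 : (Finset.univ : Finset (Fin I.n)).filter (fun i => q i = j)
          = (Finset.univ : Finset (Fin I.n)).filter
            (fun i => p i.succ = (p 0).succAbove j) := by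
        apply Finset.filter_congr
        intro i _
        rw [← hq i]
        exact (Fin.succAbove_right_injective.eq_iff).symm
      rw [h2]
      have h3 : (0 : ℚ) ≤ (if p 0 = (p 0).succAbove j then 1 else 0) := by
        split_ifs <;> norm_num
      linarith
    omega

theorem OPT_addOne_le (I : Inst) : OPT (addOne I) ≤ OPT I + 1 := by
  classical
  have hex : ∃ q : Fin I.n → Fin (OPT I), IsPacking I (OPT I) q :=
    Nat.sInf_mem (packing_nonempty I)
  obtain ⟨q, hq⟩ := hex
  apply Nat.sInf_le
  refine ⟨(Fin.cons (Fin.last (OPT I)) (fun i => (q i).castSucc) :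
    Fin (I.n + 1) → Fin (OPT I + 1)), ?_⟩
  intro j
  change ∑ i ∈ (Finset.univ : Finset (Fin (I.n + 1))).filter (fun i =>
    (Fin.cons (Fin.last (OPT I)) (fun i => (q i).castSucc) :
    Fin (I.n + 1) → Fin (OPT I + 1)) i = j), (Fin.cons 1 I.size : Fin (I.n + 1) → ℚ) i ≤ 1
  rw [addOne_sum I]
  simp only [Fin.cons_zero, Fin.cons_succ]
  refine Fin.lastCases ?_ (fun j => ?_) j
  · rw [if_pos rfl]
    have : (Finset.univ : Finset (Fin I.n)).filter
        (fun i => (q i).castSucc = Fin.last (OPT I)) = ∅ := by
      apply Finset.filter_eq_empty_iff.mpr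
      intro i _ h
      exact (Fin.castSucc_lt_last (q i)).ne h
    rw [this]
    simp
  · rw [if_neg (fun h => (Fin.castSucc_lt_last j).ne h.symm)]
    have : (Finset.univ : Finset (Fin I.n)).filter
        (fun i => (q i).castSucc = j.castSucc)
        = (Finset.univ : Finset (Fin I.n)).filter (fun i => q i = j) := by
      apply Finset.filter_congr
      intro i _
      exact (Fin.castSucc_injective _).eq_iff
    rw [this, zero_add]
    exact hq j

theorem sizes_addOne (I : Inst) : sizes (addOne I) = insert 1 (sizes I) := by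
  ext σ
  simp only [sizes, Finset.mem_image, Finset.mem_univ, true_and, Finset.mem_insert]
  constructor
  · rintro ⟨i, rfl⟩
    revert i
    change ∀ i : Fin (I.n + 1), _
    intro i
    refine Fin.cases ?_ (fun j => ?_) i
    · left; rfl
    · right; exact ⟨j, rfl⟩
  · rintro (rfl | ⟨j, rfl⟩)
    · exact ⟨(0 : Fin (I.n + 1)), rfl⟩
    · exact ⟨(j.succ : Fin (I.n + 1)), rfl⟩

theorem mult_addOne (I : Inst) (σ : ℚ) :
    mult (addOne I) σ = mult I σ + (if σ = 1 then 1 else 0) := by
  classical
  unfold mult
  have h1 : ((Finset.univ : Finset (Fin (I.n + 1))).filter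
      (fun i => (Fin.cons 1 I.size : Fin (I.n + 1) → ℚ) i = σ)).card
      = (if σ = 1 then 1 else 0)
        + ((Finset.univ : Finset (Fin I.n)).filter (fun i => I.size i = σ)).card := by
    rw [Finset.card_filter, Finset.card_filter, Fin.sum_univ_succ]
    congr 1
    have : ((Fin.cons 1 I.size : Fin (I.n + 1) → ℚ) 0 = σ) ↔ σ = 1 := by
      constructor
      · intro h; exact h.symm
      · intro h; exact h.symm
    by_cases hs : σ = 1
    · rw [if_pos (this.mpr hs), if_pos hs]
    · rw [if_neg (fun h => hs (this.mp h)), if_neg hs]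
  rw [add_comm]
  exact h1

theorem feas (I : Inst) {m : ℕ} (cnt : Fin m → Fin I.n → ℕ) (w : Fin m → ℝ)
    (hw : ∀ k, 0 ≤ w k) (hc : ∀ k, ∑ i, (cnt k i : ℚ) * I.size i ≤ 1)
    (hcov : ∀ i0, (mult I (I.size i0) : ℝ)
      ≤ ∑ k, w k * ((∑ i ∈ Finset.univ.filter (fun i => I.size i = I.size i0), cnt k i : ℕ) : ℝ)) :
    ∃ z : (ℚ →₀ ℕ) →₀ ℝ, IsFractional I z := by
  classical
  set z : (ℚ →₀ ℕ) →₀ ℝ := ∑ k, Finsupp.single (cfg I.size (cnt k)) (w k) with hz
  have hsum : ∀ g : (ℚ →₀ ℕ) → ℝ, z.sum (fun c x => g c * x) = ∑ k, w k * g (cfg I.size (cnt k)) := by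
    intro g
    rw [hz, ← Finsupp.sum_finset_sum_index]
    · apply Finset.sum_congr rfl
      intro k _
      rw [Finsupp.sum_single_index]
      · ring
      · ring
    · intro c
      ring
    · intro c x y
      ring
  have hzc : ∀ c, z c = ∑ k, if cfg I.size (cnt k) = c then w k else 0 := by
    intro c
    rw [hz, Finsupp.finset_sum_apply]
    apply Finset.sum_congr rfl
    intro k _
    rw [Finsupp.single_apply]
  have hfeas : IsFractional I z := by
    refine ⟨?_, ?_, ?_⟩
    · intro c
      rw [hzc]
      apply Finset.sum_nonneg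
      intro k _
      split_ifs
      · exact hw k
      · exact le_rfl
    · intro c hne
      rw [hzc] at hne
      obtain ⟨k, _, hk⟩ := Finset.exists_ne_zero_of_sum_ne_zero hne
      have : cfg I.size (cnt k) = c := by
        by_contra h
        rw [if_neg h] at hk
        exact hk rfl
      rw [← this]
      exact cfg_isConfig I (cnt k) (hc k)
    · intro σ hσ
      obtain ⟨i0, _, rfl⟩ := Finset.mem_image.mp hσ
      have h1 := hcov i0
      rw [hsum (fun c => ((c (I.size i0) : ℕ) : ℝ))]
      refine h1.trans (le_of_eq ?_)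
      apply Finset.sum_congr rfl
      intro k _
      rw [cfg_apply]
  exact ⟨z, hfeas⟩

theorem frac_nonempty (I : Inst) : ∃ z : (ℚ →₀ ℕ) →₀ ℝ, IsFractional I z := by
  classical
  refine feas I (fun k i => if i = k then 1 else 0) (fun _ => 1) (fun _ => zero_le_one) ?_ ?_
  · intro k
    have : ∑ i, (((if i = k then 1 else 0 : ℕ) : ℚ)) * I.size i = I.size k := by
      simp
    rw [this]
    exact I.le_one k
  · intro i0
    have : ∑ k : Fin I.n, (1 : ℝ) * ((∑ i ∈ Finset.univ.filter
        (fun i => I.size i = I.size i0), (if i = k then 1 else 0) : ℕ) : ℝ)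
        = (mult I (I.size i0) : ℝ) := by
      push_cast
      simp only [one_mul]
      rw [Finset.sum_comm]
      simp [mult]
    rw [this]

theorem LP_addOne_le (I : Inst) : LP (addOne I) ≤ LP I + 1 := by
  classical
  have hone : ∀ c : ℚ →₀ ℕ, IsConfig I c → IsConfig (addOne I) c := by
    intro c hc
    refine ⟨?_, ?_⟩
    · intro σ hσ
      apply hc.1
      intro h
      apply hσ
      rw [sizes_addOne]
      exact Finset.mem_insert_of_mem h
    · rw [sizes_addOne]
      by_cases h : (1 : ℚ) ∈ sizes I
      · rw [Finset.insert_eq_of_mem h]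
        exact hc.2
      · rw [Finset.sum_insert h, hc.1 1 h]
        simpa using hc.2
  have hc1 : IsConfig (addOne I) (Finsupp.single 1 1) := by
    refine ⟨?_, ?_⟩
    · intro σ hσ
      rw [Finsupp.single_apply, if_neg]
      intro h
      apply hσ
      rw [sizes_addOne, ← h]
      exact Finset.mem_insert_self _ _
    · have : ∑ σ ∈ sizes (addOne I), σ * (((Finsupp.single (1 : ℚ) (1 : ℕ)) σ : ℕ) : ℚ)
          ≤ 1 := by
        have h1 : ∀ σ ∈ sizes (addOne I), σ * (((Finsupp.single (1 : ℚ) (1 : ℕ)) σ : ℕ) : ℚ)
            = if σ = 1 then 1 else 0 := by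
          intro σ _
          rw [Finsupp.single_apply]
          by_cases h : (1 : ℚ) = σ
          · rw [if_pos h, if_pos h.symm, ← h]; norm_num
          · rw [if_neg h, if_neg (fun h' => h h'.symm)]; norm_num
        rw [Finset.sum_congr rfl h1, Finset.sum_ite_eq']
        split_ifs <;> norm_num
      exact this
  have key : ∀ z : (ℚ →₀ ℕ) →₀ ℝ, IsFractional I z →
      LP (addOne I) ≤ z.sum (fun _ w => w) + 1 := by
    intro z hz
    unfold LP
    apply csInf_le
    · refine ⟨0, ?_⟩
      rintro v ⟨z', hz', rfl⟩
      apply Finsupp.sum_nonneg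
      intro c _
      exact hz'.1 c
    · refine ⟨z + Finsupp.single (Finsupp.single 1 1) 1, ⟨?_, ?_, ?_⟩, ?_⟩
      · intro c
        rw [Finsupp.add_apply, Finsupp.single_apply]
        have := hz.1 c
        split_ifs <;> linarith
      · intro c hc
        rw [Finsupp.add_apply, Finsupp.single_apply] at hc
        by_cases h : Finsupp.single (1 : ℚ) (1 : ℕ) = c
        · rw [← h]; exact hc1
        · rw [if_neg h, add_zero] at hc
          exact hone c (hz.2.1 c hc)
      · intro σ hσ
        rw [Finsupp.sum_add_index' (by intro c; ring) (by intro c x y; ring),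
          Finsupp.sum_single_index (by ring), mult_addOne]
        have hs : (mult I σ : ℝ) ≤ z.sum (fun c w => (c σ : ℝ) * w) := by
          by_cases h : σ ∈ sizes I
          · exact hz.2.2 σ h
          · have h0 : mult I σ = 0 := by
              unfold mult
              rw [Finset.card_eq_zero, Finset.filter_eq_empty_iff]
              intro i _ hi
              apply h
              rw [← hi]
              exact Finset.mem_image_of_mem _ (Finset.mem_univ i)
            rw [h0, Nat.cast_zero]
            apply Finsupp.sum_nonneg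
            intro c _
            exact mul_nonneg (Nat.cast_nonneg _) (hz.1 c)
        rw [Finsupp.single_apply]
        by_cases h1 : σ = 1
        · rw [if_pos h1, if_pos h1.symm]
          push_cast
          linarith
        · rw [if_neg h1, if_neg (fun h => h1 h.symm)]
          push_cast
          linarith
      · rw [Finsupp.sum_add_index' (by intro c; rfl) (by intro c x y; rfl),
          Finsupp.sum_single_index rfl]
  have hne : {v : ℝ | ∃ z : (ℚ →₀ ℕ) →₀ ℝ, IsFractional I z ∧
      v = z.sum (fun _ w => w)}.Nonempty := by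
    obtain ⟨z, hz⟩ := frac_nonempty I
    exact ⟨_, z, hz, rfl⟩
  have h2 : LP (addOne I) - 1 ≤ LP I := by
    apply le_csInf hne
    rintro v ⟨z, hz, rfl⟩
    have := key z hz
    linarith
  linarith

end Vale.Agent.Lib.P302
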