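import Vale.Agent.Lib.P302.Typed

/-!
# P302: lower bound for the optimum from the two-level certificate
-/

namespace Vale.Agent.Lib.P302

/-- The condition on one class `(T, a)`: the items whose label occurs in `T` fill at most `a + 1`
bins of pattern `T`, and they cannot be packed into `a + 1` bins. -/
def clsOK (t : List ℕ) (C : ℕ) (lab : ℕ → ℕ) (q : List ℕ × ℕ) : Bool :=
  let cl := t.filter (fun x => q.1.contains (lab x))
  Nat.ble cl.length (q.1.length * (q.2 + 1)) && npt C (q.2 + 1) cl []

theorem no_bins (t : List ℕ) (C M L K : ℕ) (lab : ℕ → ℕ) (tok : List (List ℕ × ℕ))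
    (hpos : ∀ x ∈ t, 0 < x) (hlpos : ∀ x ∈ t, 0 < lab x)
    (hslack : (t.map (fun x => M * lab x - x)).sum + C < M * (L + 1))
    (hcls : ∀ q ∈ tok, clsOK t C lab q = true)
    (htop : npt L K (t.map lab) tok = true)
    (Bs : Multiset (Multiset ℕ)) (hK : Bs.card = K) (hs : Bs.sum = (t : Multiset ℕ))
    (hC : ∀ B ∈ Bs, B.sum ≤ C) : False := by
  have hle : ∀ B ∈ Bs, B ≤ (t : Multiset ℕ) := by
    intro B hB
    rw [← hs]
    exact Multiset.le_sum_of_mem hB
  refine npt_sound L K (t.map lab) tok ?_ htop (Bs.map (Multiset.map lab)) ?_ ?_ ?_ ?_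
  · intro y hy
    obtain ⟨x, hx, rfl⟩ := List.mem_map.mp hy
    exact hlpos x hx
  · rw [Multiset.card_map]; exact hK
  · have h1 := (Multiset.mapAddMonoidHom lab).map_multiset_sum Bs
    have h2 : Multiset.map lab Bs.sum = (Multiset.map (Multiset.map lab) Bs).sum := by
      simpa using h1
    rw [← h2, hs]
    rfl
  · intro b hb
    obtain ⟨B, hB, rfl⟩ := Multiset.mem_map.mp hb
    have h1 : M * (B.map lab).sum ≤ B.sum + (B.map (fun x => M * lab x - x)).sum := by
      clear hb hB
      induction B using Multiset.induction_on with
      | empty => simp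
      | cons x B ih =>
        rw [Multiset.map_cons, Multiset.map_cons, Multiset.sum_cons, Multiset.sum_cons,
          Multiset.sum_cons, Nat.mul_add]
        have h3 : M * lab x ≤ x + (M * lab x - x) := by omega
        omega
    have h2 : (B.map (fun x => M * lab x - x)).sum ≤ (t.map (fun x => M * lab x - x)).sum := by
      obtain ⟨u, hu⟩ := Multiset.le_iff_exists_add.mp (hle B hB)
      have e : (t.map (fun x => M * lab x - x)).sum
          = (Multiset.map (fun x => M * lab x - x) (t : Multiset ℕ)).sum := by simp
      rw [e, hu, Multiset.map_add, Multiset.sum_add]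
      omega
    have h3 := hC B hB
    have h4 : M * (B.map lab).sum < M * (L + 1) := by omega
    have h5 := lt_of_mul_lt_mul_left h4 (Nat.zero_le M)
    omega
  · intro q hq
    by_contra hcon
    have hcon' : q.2 + 1 ≤ Multiset.count (q.1 : Multiset ℕ) (Bs.map (Multiset.map lab)) := by
      omega
    rw [Multiset.count_map] at hcon'
    obtain ⟨S, hS, hcard⟩ : ∃ S ≤ Bs.filter (fun B => (q.1 : Multiset ℕ) = Multiset.map lab B),
        S.card = q.2 + 1 := by
      obtain ⟨S, hS⟩ := Multiset.exists_mem_of_ne_zero
        (s := Multiset.powersetCard (q.2 + 1)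
          (Bs.filter (fun B => (q.1 : Multiset ℕ) = Multiset.map lab B))) (by
          intro h0
          have h1 := congrArg Multiset.card h0
          rw [Multiset.card_powersetCard, Multiset.card_zero, Nat.choose_eq_zero_iff] at h1
          omega)
      exact ⟨S, (Multiset.mem_powersetCard.mp hS).1, (Multiset.mem_powersetCard.mp hS).2⟩
    have hSB : S ≤ Bs := le_trans hS (Multiset.filter_le _ _)
    have hST : ∀ B ∈ S, Multiset.map lab B = (q.1 : Multiset ℕ) := by
      intro B hB
      exact (Multiset.mem_filter.mp (Multiset.mem_of_le hS hB)).2.symm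
    have hq' := hcls q hq
    simp only [clsOK, Bool.and_eq_true] at hq'
    obtain ⟨hlen, hnp⟩ := hq'
    have hlen' := Nat.le_of_ble_eq_true hlen
    have hSsum : S.sum ≤ (t : Multiset ℕ) := by
      rw [← hs]
      obtain ⟨u, hu⟩ := Multiset.le_iff_exists_add.mp hSB
      rw [hu, Multiset.sum_add]
      exact Multiset.le_add_right _ _
    have hmemS : ∀ x ∈ S.sum, lab x ∈ q.1 := by
      intro x hx
      have hx' : x ∈ Multiset.join S := hx
      rw [Multiset.mem_join] at hx'
      obtain ⟨B, hB, hxB⟩ := hx'
      have h1 : lab x ∈ Multiset.map lab B := Multiset.mem_map_of_mem lab hxB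
      rw [hST B hB] at h1
      simpa using h1
    have hScl : S.sum ≤ ((t.filter (fun x => q.1.contains (lab x)) : List ℕ) : Multiset ℕ) := by
      have e : ((t.filter (fun x => q.1.contains (lab x)) : List ℕ) : Multiset ℕ)
          = Multiset.filter (fun x => lab x ∈ q.1) (t : Multiset ℕ) := by
        rw [Multiset.filter_coe]
        congr 1
        apply List.filter_congr
        intro x _
        simp
      rw [e]
      exact Multiset.le_filter.mpr ⟨hSsum, hmemS⟩
    have hcardS : S.sum.card = q.1.length * (q.2 + 1) := by
      have h1 : ∀ S : Multiset (Multiset ℕ), (∀ B ∈ S, Multiset.map lab B = (q.1 : Multiset ℕ)) →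
          S.sum.card = q.1.length * S.card := by
        intro S
        induction S using Multiset.induction_on with
        | empty => simp
        | cons B S ih =>
          intro h
          rw [Multiset.sum_cons, Multiset.card_add, Multiset.card_cons,
            ih (fun B' hB' => h B' (Multiset.mem_cons_of_mem hB'))]
          have h2 : B.card = q.1.length := by
            rw [← Multiset.card_map lab B, h B (Multiset.mem_cons_self B S)]
            rfl
          rw [h2]
          ring
      rw [h1 S hST, hcard]
    have heq : S.sum = ((t.filter (fun x => q.1.contains (lab x)) : List ℕ) : Multiset ℕ) := by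
      apply Multiset.eq_of_le_of_card_le hScl
      rw [hcardS, Multiset.coe_card]
      exact hlen'
    exact npt_sound C (q.2 + 1) _ [] (by
      intro x hx
      exact hpos x (List.mem_filter.mp hx).1) hnp S hcard heq
      (fun B hB => hC B (Multiset.mem_of_le hSB hB)) (by simp)

/-- Lower bound for the optimum from the two-level certificate. -/
theorem lt_OPT_of_npt (t : List ℕ) (C M L K : ℕ) (lab : ℕ → ℕ) (tok : List (List ℕ × ℕ))
    (h0 : ∀ i, 0 < t.get i) (h1 : ∀ i, t.get i ≤ C) (hC : 0 < C)
    (hlpos : ∀ x ∈ t, 0 < lab x)
    (hslack : (t.map (fun x => M * lab x - x)).sum + C < M * (L + 1))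
    (hcls : ∀ q ∈ tok, clsOK t C lab q = true)
    (htop : npt L K (t.map lab) tok = true) :
    K < OPT (ofNat t.get C h0 h1 hC) := by
  classical
  have hpos : ∀ x ∈ t, 0 < x := by
    intro x hx
    obtain ⟨i, rfl⟩ := List.mem_iff_get.mp hx
    exact h0 i
  have key : ∀ k, k ≤ K → ¬ ∃ p : Fin t.length → Fin k,
      IsPacking (ofNat t.get C h0 h1 hC) k p := by
    rintro k hk ⟨p, hp⟩
    set p' : Fin t.length → Fin K := fun i => Fin.castLE hk (p i) with hp'def
    have hp' : ∀ j : Fin K, ∑ i ∈ Finset.univ.filter (fun i => p' i = j), t.get i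
        ≤ C := by
      intro j
      by_cases hj : (j : ℕ) < k
      · have h2 := hp ⟨j, hj⟩
        have e : (Finset.univ.filter (fun i => p' i = j))
            = Finset.univ.filter (fun i => p i = ⟨j, hj⟩) := by
          apply Finset.filter_congr
          intro i _
          constructor
          · intro h
            apply Fin.ext
            have := congrArg Fin.val h
            simpa [hp'def] using this
          · intro h
            apply Fin.ext
            rw [hp'def]
            simp only []
            rw [h]
            rfl
        rw [e]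
        have hL' : (0 : ℚ) < (C : ℚ) := by exact_mod_cast hC
        have h3 : ∑ i ∈ Finset.univ.filter (fun i => p i = ⟨j, hj⟩), ((t.get i : ℕ) : ℚ) / (C : ℚ)
            ≤ 1 := h2
        rw [← Finset.sum_div, div_le_one hL'] at h3
        exact_mod_cast h3
      · have e : (Finset.univ.filter (fun i => p' i = j)) = ∅ := by
          apply Finset.filter_eq_empty_iff.mpr
          intro i _ h
          apply hj
          rw [← h]
          exact (p i).2
        rw [e]
        simp
    refine no_bins t C M L K lab tok hpos hlpos hslack hcls htop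
      ((Finset.univ : Finset (Fin K)).val.map
        (fun j => ∑ i ∈ Finset.univ.filter (fun i => p' i = j), ({t.get i} : Multiset ℕ)))
      ?_ ?_ ?_
    · rw [Multiset.card_map]
      exact (Finset.card_univ (α := Fin K)).trans (Fintype.card_fin K)
    · have e1 : (((Finset.univ : Finset (Fin K)).val.map
        (fun j => ∑ i ∈ Finset.univ.filter (fun i => p' i = j), ({t.get i} : Multiset ℕ)))).sum
          = ∑ j, ∑ i ∈ Finset.univ.filter (fun i => p' i = j), ({t.get i} : Multiset ℕ) := rfl
      rw [e1, Finset.sum_fiberwise]
      have e2 : ∀ l : List ℕ, (l.map (fun x => ({x} : Multiset ℕ))).sum = (l : Multiset ℕ) := by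
        intro l
        induction l with
        | nil => rfl
        | cons x l ih =>
          rw [List.map_cons, List.sum_cons, ih]
          rfl
      rw [← e2 t]
      conv_rhs => rw [← List.ofFn_get t, List.map_ofFn]
      rw [List.sum_ofFn]
      rfl
    · intro B hB
      obtain ⟨j, _, rfl⟩ := Multiset.mem_map.mp hB
      have e3 : (∑ i ∈ Finset.univ.filter (fun i => p' i = j), ({t.get i} : Multiset ℕ)).sum
          = ∑ i ∈ Finset.univ.filter (fun i => p' i = j), t.get i := by
        generalize (Finset.univ.filter (fun i => p' i = j)) = s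
        induction s using Finset.induction_on with
        | empty => simp
        | insert a s ha ih =>
          rw [Finset.sum_insert ha, Finset.sum_insert ha, Multiset.sum_add, ih,
            Multiset.sum_singleton]
      rw [e3]
      exact hp' j
  have hne : {k | ∃ p : Fin t.length → Fin k, IsPacking (ofNat t.get C h0 h1 hC) k p}.Nonempty := by
    refine ⟨t.length, id, ?_⟩
    intro j
    have e : (Finset.univ.filter (fun i : Fin t.length => id i = j)) = {j} := by
      ext i; simp
    change ∑ i ∈ Finset.univ.filter (fun i : Fin t.length => id i = j),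
      ((t.get i : ℕ) : ℚ) / (C : ℚ) ≤ 1
    rw [e, Finset.sum_singleton]
    exact (ofNat t.get C h0 h1 hC).le_one j
  by_contra hcon
  exact key _ (not_lt.mp hcon) (Nat.sInf_mem hne)

end Vale.Agent.Lib.P302
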