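import Mathlib

/-!
# P302: bin packing, the optimum and the Gilmore-Gomory configuration LP value
-/

namespace Vale.Agent.Lib.P302

/-- A bin packing instance: `n` items of rational sizes in `(0,1]`. -/
structure Inst where
  /-- number of items -/
  n : ℕ
  /-- the size of each item -/
  size : Fin n → ℚ
  pos : ∀ i, 0 < size i
  le_one : ∀ i, size i ≤ 1

/-- `p` partitions the items of `I` into `k` bins of total size at most one. -/
def IsPacking (I : Inst) (k : ℕ) (p : Fin I.n → Fin k) : Prop :=
  ∀ j, ∑ i ∈ Finset.univ.filter (fun i => p i = j), I.size i ≤ 1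

/-- The least number of bins. -/
noncomputable def OPT (I : Inst) : ℕ := sInf {k | ∃ p : Fin I.n → Fin k, IsPacking I k p}

/-- The set of distinct sizes. -/
def sizes (I : Inst) : Finset ℚ := Finset.univ.image I.size

/-- The multiplicity of a size. -/
def mult (I : Inst) (σ : ℚ) : ℕ := (Finset.univ.filter (fun i => I.size i = σ)).card

/-- A configuration: nonnegative integers `c σ` for the distinct sizes `σ`, with
`∑ σ c_σ ≤ 1` (a size may occur more often than its multiplicity). -/
def IsConfig (I : Inst) (c : ℚ →₀ ℕ) : Prop :=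
  (∀ σ, σ ∉ sizes I → c σ = 0) ∧ ∑ σ ∈ sizes I, σ * (c σ : ℚ) ≤ 1

/-- `z` is a feasible solution of the configuration LP: nonnegative weights on configurations
that cover every size at least as often as its multiplicity. -/
def IsFractional (I : Inst) (z : (ℚ →₀ ℕ) →₀ ℝ) : Prop :=
  (∀ c, 0 ≤ z c) ∧ (∀ c, z c ≠ 0 → IsConfig I c) ∧
    ∀ σ ∈ sizes I, (mult I σ : ℝ) ≤ z.sum (fun c w => (c σ : ℝ) * w)

/-- The value of the configuration LP. -/
noncomputable def LP (I : Inst) : ℝ :=
  sInf {v : ℝ | ∃ z : (ℚ →₀ ℕ) →₀ ℝ, IsFractional I z ∧ v = z.sum (fun _ w => w)}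

/-- The instance with item sizes `s i / L`. -/
def ofNat {n : ℕ} (s : Fin n → ℕ) (L : ℕ) (h0 : ∀ i, 0 < s i) (h1 : ∀ i, s i ≤ L)
    (hL : 0 < L) : Inst where
  n := n
  size := fun i => (s i : ℚ) / (L : ℚ)
  pos := fun i => by
    have := h0 i
    positivity
  le_one := fun i => by
    have h : (s i : ℚ) ≤ (L : ℚ) := by exact_mod_cast h1 i
    have hL' : (0 : ℚ) < (L : ℚ) := by exact_mod_cast hL
    rw [div_le_one hL']
    exact h

end Vale.Agent.Lib.P302
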