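import Vale.Agent.Lib.P302.Defs

/-!
# P302: upper bound for the LP value from an explicit family of patterns
-/

namespace Vale.Agent.Lib.P302

/-- The configuration with `cnt i` copies of the size of item `i`. -/
noncomputable def cfg {n : ℕ} (a : Fin n → ℚ) (cnt : Fin n → ℕ) : ℚ →₀ ℕ :=
  ∑ i, Finsupp.single (a i) (cnt i)

theorem cfg_apply {n : ℕ} (a : Fin n → ℚ) (cnt : Fin n → ℕ) (σ : ℚ) :
    cfg a cnt σ = ∑ i ∈ Finset.univ.filter (fun i => a i = σ), cnt i := by
  unfold cfg
  rw [Finsupp.finset_sum_apply, Finset.sum_filter]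
  apply Finset.sum_congr rfl
  intro i _
  rw [Finsupp.single_apply]

theorem cfg_isConfig (I : Inst) (cnt : Fin I.n → ℕ) (h : ∑ i, (cnt i : ℚ) * I.size i ≤ 1) :
    IsConfig I (cfg I.size cnt) := by
  constructor
  · intro σ hσ
    rw [cfg_apply]
    apply Finset.sum_eq_zero
    intro i hi
    exfalso
    apply hσ
    rw [← (Finset.mem_filter.mp hi).2]
    exact Finset.mem_image_of_mem _ (Finset.mem_univ i)
  · have e : ∑ σ ∈ sizes I, σ * ((cfg I.size cnt σ : ℕ) : ℚ) = ∑ i, (cnt i : ℚ) * I.size i := by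
      have h1 : ∀ σ ∈ sizes I, σ * ((cfg I.size cnt σ : ℕ) : ℚ)
          = ∑ i ∈ Finset.univ.filter (fun i => I.size i = σ), (cnt i : ℚ) * I.size i := by
        intro σ _
        rw [cfg_apply]
        push_cast
        rw [Finset.mul_sum]
        apply Finset.sum_congr rfl
        intro i hi
        rw [(Finset.mem_filter.mp hi).2]
        ring
      rw [Finset.sum_congr rfl h1]
      exact Finset.sum_fiberwise_of_maps_to
        (fun i _ => Finset.mem_image_of_mem I.size (Finset.mem_univ i)) _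
    rw [e]
    exact h

theorem LP_le (I : Inst) {m : ℕ} (cnt : Fin m → Fin I.n → ℕ) (w : Fin m → ℝ)
    (hw : ∀ k, 0 ≤ w k) (hc : ∀ k, ∑ i, (cnt k i : ℚ) * I.size i ≤ 1)
    (hcov : ∀ i0, (mult I (I.size i0) : ℝ)
      ≤ ∑ k, w k * ((∑ i ∈ Finset.univ.filter (fun i => I.size i = I.size i0), cnt k i : ℕ) : ℝ)) :
    LP I ≤ ∑ k, w k := by
  classical
  set z : (ℚ →₀ ℕ) →₀ ℝ := ∑ k, Finsupp.single (cfg I.size (cnt k)) (w k) with hz
  have hsum : ∀ g : (ℚ →₀ ℕ) → ℝ, z.sum (fun c x => g c * x) = ∑ k, w k * g (cfg I.size (cnt k)) := by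
    intro g
    rw [hz, ← Finsupp.sum_finset_sum_index]
    · apply Finset.sum_congr rfl
      intro k _
      rw [Finsupp.sum_single_index]
      · ring
      · ring
    · intro c
      ring
    · intro c x y
      ring
  have hzc : ∀ c, z c = ∑ k, if cfg I.size (cnt k) = c then w k else 0 := by
    intro c
    rw [hz, Finsupp.finset_sum_apply]
    apply Finset.sum_congr rfl
    intro k _
    rw [Finsupp.single_apply]
  have hfeas : IsFractional I z := by
    refine ⟨?_, ?_, ?_⟩
    · intro c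
      rw [hzc]
      apply Finset.sum_nonneg
      intro k _
      split_ifs
      · exact hw k
      · exact le_rfl
    · intro c hne
      rw [hzc] at hne
      obtain ⟨k, _, hk⟩ := Finset.exists_ne_zero_of_sum_ne_zero hne
      have : cfg I.size (cnt k) = c := by
        by_contra h
        rw [if_neg h] at hk
        exact hk rfl
      rw [← this]
      exact cfg_isConfig I (cnt k) (hc k)
    · intro σ hσ
      obtain ⟨i0, _, rfl⟩ := Finset.mem_image.mp hσ
      have h1 := hcov i0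
      rw [hsum (fun c => ((c (I.size i0) : ℕ) : ℝ))]
      refine h1.trans (le_of_eq ?_)
      apply Finset.sum_congr rfl
      intro k _
      rw [cfg_apply]
  have hval : z.sum (fun _ x => x) = ∑ k, w k := by
    have h1 := hsum (fun _ => 1)
    simpa using h1
  unfold LP
  apply csInf_le
  · refine ⟨0, ?_⟩
    rintro v ⟨z', hz', rfl⟩
    apply Finsupp.sum_nonneg
    intro c _
    exact hz'.1 c
  · exact ⟨z, hfeas, hval.symm⟩

/-- The same in integers: weights `W k / D`, sizes `s i / L`. -/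
theorem LP_le_nat {n m : ℕ} (s : Fin n → ℕ) (L D : ℕ) (h0 : ∀ i, 0 < s i) (h1 : ∀ i, s i ≤ L)
    (hL : 0 < L) (hD : 0 < D) (cnt : Fin m → Fin n → ℕ) (W : Fin m → ℕ)
    (hc : ∀ k, ∑ i, cnt k i * s i ≤ L)
    (hcov : ∀ i0, D * (Finset.univ.filter (fun i => s i = s i0)).card
      ≤ ∑ k, W k * ∑ i ∈ Finset.univ.filter (fun i => s i = s i0), cnt k i) :
    LP (ofNat s L h0 h1 hL) ≤ ((∑ k, W k : ℕ) : ℝ) / (D : ℝ) := by
  have hLq : (0 : ℚ) < (L : ℚ) := by exact_mod_cast hL
  have hDr : (0 : ℝ) < (D : ℝ) := by exact_mod_cast hD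
  have hinj : ∀ i i0 : Fin n, ((s i : ℚ) / (L : ℚ) = (s i0 : ℚ) / (L : ℚ)) ↔ s i = s i0 := by
    intro i i0
    rw [div_left_inj' hLq.ne']
    exact_mod_cast Iff.rfl
  have hfil : ∀ i0 : Fin n, (Finset.univ.filter
      (fun i : Fin n => (s i : ℚ) / (L : ℚ) = (s i0 : ℚ) / (L : ℚ)))
      = Finset.univ.filter (fun i => s i = s i0) := by
    intro i0
    apply Finset.filter_congr
    intro i _
    exact hinj i i0
  have h := LP_le (ofNat s L h0 h1 hL) cnt (fun k => (W k : ℝ) / (D : ℝ))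
    (fun k => by positivity)
    (fun k => by
      change ∑ i : Fin n, (cnt k i : ℚ) * ((s i : ℚ) / (L : ℚ)) ≤ 1
      have e : ∑ i : Fin n, (cnt k i : ℚ) * ((s i : ℚ) / (L : ℚ))
          = ((∑ i, cnt k i * s i : ℕ) : ℚ) / (L : ℚ) := by
        push_cast
        rw [Finset.sum_div]
        apply Finset.sum_congr rfl
        intro i _
        ring
      rw [e, div_le_one hLq]
      exact_mod_cast hc k)
    (fun i0 => by
      change ((Finset.univ.filter (fun i : Fin n => (s i : ℚ) / (L : ℚ)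
          = (s i0 : ℚ) / (L : ℚ))).card : ℝ)
        ≤ ∑ k, (W k : ℝ) / (D : ℝ) * ((∑ i ∈ Finset.univ.filter (fun i : Fin n =>
          (s i : ℚ) / (L : ℚ) = (s i0 : ℚ) / (L : ℚ)), cnt k i : ℕ) : ℝ)
      rw [hfil i0]
      have e : ∑ k, (W k : ℝ) / (D : ℝ) * ((∑ i ∈ Finset.univ.filter (fun i : Fin n =>
          s i = s i0), cnt k i : ℕ) : ℝ)
          = ((∑ k, W k * ∑ i ∈ Finset.univ.filter (fun i => s i = s i0), cnt k i : ℕ) : ℝ)
            / (D : ℝ) := by
        push_cast
        rw [Finset.sum_div]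
        apply Finset.sum_congr rfl
        intro k _
        ring
      rw [e, le_div_iff₀ hDr]
      have h2 := hcov i0
      rw [mul_comm] at h2
      exact_mod_cast h2)
  refine h.trans (le_of_eq ?_)
  rw [← Finset.sum_div]
  push_cast
  rfl

end Vale.Agent.Lib.P302
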