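import Vale.Agent.Lib.P302.TwoLevel
import Vale.Agent.Lib.P302.Frac

/-!
# P302: an explicit instance with gap 29/24
-/

namespace Vale.Agent.Lib.P302.InstA

open Vale.Agent.Lib.P302

/-- the sizes -/
def sl : List ℕ := [2679559208, 2679559200, 2679559198, 1531213160, 1277888360, 1155422360, 1155421205, 1155421201, 1155421200, 1155421197, 1155421196, 1155421195, 1152874760, 1152626360, 1151662760, 1148613608, 1148613600, 1148613598, 882284360, 856255160, 394204760, 389948405, 389948401, 389948400, 389948397, 389948396, 389948395]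

/-- the types -/
def tl : List ℕ := [0, 0, 0, 1, 2, 3, 4, 4, 4, 4, 4, 4, 5, 6, 7, 8, 8, 8, 9, 10, 11, 12, 12, 12, 12, 12, 12]

/-- the sizes of the items -/
def s (i : Fin 27) : ℕ := sl.getD i.val 0

/-- the types of the items -/
def ty (i : Fin 27) : ℕ := tl.getD i.val 0

/-- level one sizes -/
def a : List ℕ := [2232966, 1276011, 1064907, 962852, 962851, 960729, 960522, 959719, 957178, 735237, 713546, 328504, 324957]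

/-- numbers of items of each type -/
def cnt : List ℕ := [3, 1, 1, 1, 6, 1, 1, 1, 3, 1, 1, 1, 6]

/-- the pure patterns -/
def cls : List (List ℕ) := [[1, 0, 0, 0, 0, 0, 0, 0, 0, 0, 0, 0, 2], [0, 0, 0, 0, 2, 0, 0, 0, 1, 0, 0, 0, 0]]

/-- numbers of pure bins -/
def q : List ℕ := [3, 3]

theorem h0 : ∀ i, 0 < s i := by decide +kernel

theorem h1 : ∀ i, s i ≤ 3459456000 := by decide +kernel

theorem hty : ∀ x, ty x < a.length := by decide +kernel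

theorem hs : ∀ x, 1200 * a.getD (ty x) 0 ≤ s x + 40 := by decide +kernel

theorem hcnt : ∀ i < a.length, (Finset.univ.filter (fun x => ty x = i)).card = cnt.getD i 0 := by
  decide +kernel

theorem hsr : srch a 2882880 cls 9 cnt q = true := by decide +kernel

/-- items of class 0 -/
def e0 : List (Fin 27) := [0, 1, 2, 21, 22, 23, 24, 25, 26]

theorem c0 : ClsOK s ty 3459456000 cnt [1, 0, 0, 0, 0, 0, 0, 0, 0, 0, 0, 0, 2] 3 := by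
  refine ⟨by decide +kernel, by decide +kernel, [2679559208, 2679559200, 2679559198, 389948405, 389948401, 389948400, 389948397, 389948396, 389948395], 389948395, fun y => e0.get y, ?_, ?_, ?_, ?_, ?_⟩
  · decide +kernel
  · decide +kernel
  · decide +kernel
  · decide +kernel
  · decide +kernel

/-- items of class 1 -/
def e1 : List (Fin 27) := [6, 7, 8, 9, 10, 11, 15, 16, 17]

theorem c1 : ClsOK s ty 3459456000 cnt [0, 0, 0, 0, 2, 0, 0, 0, 1, 0, 0, 0, 0] 3 := by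
  refine ⟨by decide +kernel, by decide +kernel, [1155421205, 1155421201, 1155421200, 1155421197, 1155421196, 1155421195, 1148613608, 1148613600, 1148613598], 1148613598, fun y => e1.get y, ?_, ?_, ?_, ?_, ?_⟩
  · decide +kernel
  · decide +kernel
  · decide +kernel
  · decide +kernel
  · decide +kernel

theorem opt : 9 < OPT (ofNat s 3459456000 h0 h1 (by norm_num)) :=
  lt_OPT_of_two_level s 3459456000 9 h0 h1 (by norm_num) ty a 2882880 1200 40 cnt cls q hty hs (by norm_num) rfl hcnt hsr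
    (.cons c0 (.cons c1 (.nil)))

/-- the patterns of the fractional solution with their weights -/
def pl : List (ℕ × List ℕ) := [
  (12, [0, 0, 0, 0, 0, 0, 0, 0, 0, 1, 0, 1, 0, 0, 0, 1, 0, 0, 0, 0, 0, 0, 0, 0, 0, 0, 0]),
  (6, [0, 0, 0, 0, 0, 0, 0, 0, 0, 0, 0, 0, 0, 0, 0, 0, 0, 0, 3, 0, 2, 0, 0, 0, 0, 0, 0]),
  (12, [0, 0, 1, 0, 0, 0, 0, 0, 0, 0, 0, 0, 0, 0, 0, 0, 0, 0, 0, 0, 0, 1, 0, 0, 1, 0, 0]),
  (12, [0, 0, 1, 0, 0, 0, 0, 0, 0, 0, 0, 0, 0, 0, 0, 0, 0, 0, 0, 0, 0, 0, 2, 0, 0, 0, 0]),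
  (12, [1, 0, 0, 0, 0, 0, 0, 0, 0, 0, 0, 0, 0, 0, 0, 0, 0, 0, 0, 0, 0, 0, 0, 0, 0, 2, 0]),
  (12, [0, 0, 0, 0, 0, 0, 0, 2, 0, 0, 0, 0, 0, 0, 0, 0, 0, 1, 0, 0, 0, 0, 0, 0, 0, 0, 0]),
  (12, [0, 0, 0, 0, 0, 1, 0, 0, 0, 0, 0, 0, 0, 0, 2, 0, 0, 0, 0, 0, 0, 0, 0, 0, 0, 0, 0]),
  (12, [0, 0, 0, 0, 0, 0, 0, 0, 0, 0, 2, 0, 0, 0, 0, 1, 0, 0, 0, 0, 0, 0, 0, 0, 0, 0, 0]),
  (12, [0, 0, 0, 0, 0, 0, 0, 0, 2, 0, 0, 0, 0, 0, 0, 0, 1, 0, 0, 0, 0, 0, 0, 0, 0, 0, 0]),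
  (12, [0, 0, 0, 0, 0, 0, 1, 0, 0, 1, 0, 0, 0, 0, 0, 0, 0, 1, 0, 0, 0, 0, 0, 0, 0, 0, 0]),
  (8, [0, 0, 0, 0, 0, 0, 0, 0, 0, 0, 0, 0, 3, 0, 0, 0, 0, 0, 0, 0, 0, 0, 0, 0, 0, 0, 0]),
  (8, [0, 0, 0, 0, 0, 0, 0, 0, 0, 0, 0, 0, 0, 3, 0, 0, 0, 0, 0, 0, 0, 0, 0, 0, 0, 0, 0]),
  (12, [0, 0, 0, 0, 0, 0, 1, 0, 0, 0, 0, 1, 0, 0, 0, 0, 1, 0, 0, 0, 0, 0, 0, 0, 0, 0, 0]),
  (6, [0, 0, 0, 0, 0, 2, 0, 0, 0, 0, 0, 0, 0, 0, 0, 0, 0, 0, 1, 0, 0, 0, 0, 0, 0, 0, 0]),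
  (3, [0, 0, 0, 0, 0, 0, 0, 0, 0, 0, 0, 0, 0, 0, 0, 0, 0, 0, 0, 4, 0, 0, 0, 0, 0, 0, 0]),
  (12, [0, 0, 0, 2, 0, 0, 0, 0, 0, 0, 0, 0, 0, 0, 0, 0, 0, 0, 0, 0, 1, 0, 0, 0, 0, 0, 0]),
  (12, [0, 1, 0, 0, 0, 0, 0, 0, 0, 0, 0, 0, 0, 0, 0, 0, 0, 0, 0, 0, 0, 1, 0, 0, 0, 0, 1]),
  (12, [1, 0, 0, 0, 0, 0, 0, 0, 0, 0, 0, 0, 0, 0, 0, 0, 0, 0, 0, 0, 0, 0, 0, 0, 1, 0, 1]),
  (12, [0, 1, 0, 0, 0, 0, 0, 0, 0, 0, 0, 0, 0, 0, 0, 0, 0, 0, 0, 0, 0, 0, 0, 2, 0, 0, 0]),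
  (12, [0, 0, 0, 0, 2, 0, 0, 0, 0, 0, 0, 0, 0, 0, 0, 0, 0, 0, 0, 1, 0, 0, 0, 0, 0, 0, 0])]

theorem lp : LP (ofNat s 3459456000 h0 h1 (by norm_num)) ≤ ((211 : ℕ) : ℝ) / ((24 : ℕ) : ℝ) := by
  have h := LP_le_nat s 3459456000 24 h0 h1 (by norm_num) (by norm_num)
    (fun (k : Fin 20) (i : Fin 27) => ((pl.getD k.val (0, [])).2).getD i.val 0)
    (fun k => (pl.getD k.val (0, [])).1) (by decide +kernel) (by decide +kernel)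
  have e : ∑ k : Fin 20, (pl.getD k.val (0, [])).1 = 211 := by decide +kernel
  rw [e] at h
  exact h

end Vale.Agent.Lib.P302.InstA
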