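import Vale.Agent.Lib.P302.Assemble

/-!
# P302: layered (memoized) certificate of non-packability
-/

namespace Vale.Agent.Lib.P302

/-- `l` cannot be packed into `K` bins of capacity `C`, using bins of pattern `T` at most `a`
times for `(T, a)` in `tok`. -/
def NP (C K : ℕ) (l : List ℕ) (tok : List (List ℕ × ℕ)) : Prop :=
  ∀ bs : Multiset (Multiset ℕ), bs.card = K → bs.sum = (l : Multiset ℕ) →
    (∀ b ∈ bs, b.sum ≤ C) → (∀ q ∈ tok, Multiset.count (q.1 : Multiset ℕ) bs ≤ q.2) → False

/-- One step of the search. -/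
def gst (C K : ℕ) (P : List ℕ → List (List ℕ × ℕ) → Bool) (x : ℕ) (t : List ℕ)
    (tok : List (List ℕ × ℕ)) : Bool :=
  Nat.blt ((K + 1) * C) (x + t.sum) ||
      (Nat.blt C x || subsAll 0 t (C - x) (fun tk r => Nat.blt (K * C) r.sum ||
        (match dec (x :: tk) tok with
          | none => true
          | some tok' => P r tok')))

theorem gst_sound (C K : ℕ) (P : List ℕ → List (List ℕ × ℕ) → Bool) (x : ℕ) (t : List ℕ)
    (tok : List (List ℕ × ℕ)) (hpos : ∀ y ∈ x :: t, 0 < y)
    (hP : ∀ r tok', P r tok' = true → NP C K r tok') (h : gst C K P x t tok = true) :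
    NP C (K + 1) (x :: t) tok := by
  intro bs hK hs hc ht
  have vol : ∀ (bs : Multiset (Multiset ℕ)), (∀ b ∈ bs, b.sum ≤ C) →
      bs.sum.sum ≤ bs.card * C := by
    intro bs
    induction bs using Multiset.induction_on with
    | empty => simp
    | cons b bs ih =>
      intro hh
      rw [Multiset.sum_cons, Multiset.sum_add, Multiset.card_cons]
      have h1 := ih (fun b' hb' => hh b' (Multiset.mem_cons_of_mem hb'))
      have h2 := hh b (Multiset.mem_cons_self b bs)
      nlinarith
  have hx : x ∈ bs.sum := by rw [hs]; simp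
  obtain ⟨b, hb, hxb⟩ : ∃ b ∈ bs, x ∈ b := by
    have : x ∈ Multiset.join bs := hx
    rw [Multiset.mem_join] at this
    obtain ⟨b, h1, h2⟩ := this
    exact ⟨b, h1, h2⟩
  obtain ⟨bs', rfl⟩ := Multiset.exists_cons_of_mem hb
  obtain ⟨b', rfl⟩ := Multiset.exists_cons_of_mem hxb
  have hK' : bs'.card = K := by
    rw [Multiset.card_cons] at hK; omega
  have hbs' : ∀ b ∈ bs', b.sum ≤ C := fun b hb => hc b (Multiset.mem_cons_of_mem hb)
  have hbx : x + b'.sum ≤ C := by
    have := hc _ (Multiset.mem_cons_self (x ::ₘ b') bs')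
    rwa [Multiset.sum_cons] at this
  have hl' : b' + bs'.sum = (t : Multiset ℕ) := by
    have e : x ::ₘ (b' + bs'.sum) = x ::ₘ (t : Multiset ℕ) := by
      rw [← Multiset.cons_add, ← Multiset.sum_cons, hs]; rfl
    exact (Multiset.cons_inj_right x).mp e
  have hsum : x + t.sum ≤ (K + 1) * C := by
    have h1 := vol _ hc
    rw [hs, Multiset.card_cons, hK'] at h1
    simpa using h1
  simp only [gst, Bool.or_eq_true] at h
  rcases h with h | h | h
  · have : (K + 1) * C < x + t.sum := by simpa [Nat.blt_eq] using h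
    omega
  · have : C < x := by simpa [Nat.blt_eq] using h
    omega
  · have h0b : (0 : ℕ) ∉ b' := by
      intro h0
      have : (0 : ℕ) ∈ (t : Multiset ℕ) := by
        rw [← hl']; exact Multiset.mem_add.mpr (Or.inl h0)
      have h2 := hpos 0 (List.mem_cons_of_mem _ (by simpa using this))
      omega
    obtain ⟨tk, rl, e1, e2, e3⟩ := subsAll_sound t 0 (C - x) _ b' bs'.sum h h0b (by omega) hl'
    simp only [Bool.or_eq_true] at e3
    rcases e3 with e3 | e3
    · have h1 : K * C < rl.sum := by simpa [Nat.blt_eq] using e3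
      have h2 := vol _ hbs'
      rw [← e2, hK'] at h2
      have h3 : rl.sum ≤ K * C := by simpa using h2
      omega
    · have ht' : ∀ q ∈ tok, Multiset.count (q.1 : Multiset ℕ)
          (((x :: tk : List ℕ) : Multiset ℕ) ::ₘ bs') ≤ q.2 := by
        intro q hq
        have h1 := ht q hq
        have e : ((x :: tk : List ℕ) : Multiset ℕ) = x ::ₘ b' := by rw [← e1]; rfl
        rw [e]; exact h1
      obtain ⟨tok', f1, f2⟩ := dec_sound (x :: tk) bs' tok ht'
      rw [f1] at e3
      exact hP rl tok' e3 bs' hK' e2.symm hbs' f2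

/-- Item list from a code (digits base 8 are the multiplicities). -/
def dIt : List ℕ → ℕ → List ℕ
  | [], _ => []
  | s :: ss, n => List.replicate (n % 8) s ++ dIt ss (n / 8)

/-- Token list from a code. -/
def dTk : List (List ℕ) → ℕ → List (List ℕ × ℕ)
  | [], _ => []
  | T :: Ts, n => (T, n % 8) :: dTk Ts (n / 8)

/-- Equality test for lists. -/
def leq : List ℕ → List ℕ → Bool
  | [], [] => true
  | x :: s, y :: t => Nat.beq x y && leq s t
  | _, _ => false

theorem leq_sound : ∀ s t : List ℕ, leq s t = true → s = t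
  | [], [], _ => rfl
  | x :: s, y :: t, h => by
    simp only [leq, Bool.and_eq_true] at h
    rw [Nat.eq_of_beq_eq_true h.1, leq_sound s t h.2]
  | [], _ :: _, h => by simp [leq] at h
  | _ :: _, [], h => by simp [leq] at h

/-- Equality test for token lists. -/
def tleq : List (List ℕ × ℕ) → List (List ℕ × ℕ) → Bool
  | [], [] => true
  | x :: s, y :: t => (Nat.beq x.2 y.2 && leq x.1 y.1) && tleq s t
  | _, _ => false

theorem tleq_sound : ∀ s t : List (List ℕ × ℕ), tleq s t = true → s = t
  | [], [], _ => rfl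
  | (x1, x2) :: s, (y1, y2) :: t, h => by
    simp only [tleq, Bool.and_eq_true] at h
    have e1 := Nat.eq_of_beq_eq_true h.1.1
    have e2 := leq_sound _ _ h.1.2
    have e3 := tleq_sound s t h.2
    subst e1 e2 e3
    rfl
  | [], _ :: _, h => by simp [tleq] at h
  | _ :: _, [], h => by simp [tleq] at h

/-- Hash of a state. -/
def hsI : List ℕ → ℕ
  | [] => 0
  | x :: t => x * x + hsI t

/-- Hash of the tokens. -/
def hsT : List (List ℕ × ℕ) → ℕ
  | [] => 0
  | q :: t => q.2 + 8 * hsT t

/-- Look up a state in a layer. -/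
def lkp (sz : List ℕ) (Ts : List (List ℕ)) (h : ℕ) (r : List ℕ) (tok : List (List ℕ × ℕ)) :
    List (ℕ × ℕ × ℕ) → Bool
  | [] => false
  | e :: es => (Nat.beq e.1 h && (leq (dIt sz e.2.1) r && tleq (dTk Ts e.2.2) tok)) ||
      lkp sz Ts h r tok es

theorem lkp_sound (sz : List ℕ) (Ts : List (List ℕ)) (h : ℕ) (r : List ℕ)
    (tok : List (List ℕ × ℕ)) : ∀ layer : List (ℕ × ℕ × ℕ), lkp sz Ts h r tok layer = true →
    ∃ e ∈ layer, dIt sz e.2.1 = r ∧ dTk Ts e.2.2 = tok
  | [], hh => by simp [lkp] at hh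
  | e :: es, hh => by
    simp only [lkp, Bool.or_eq_true, Bool.and_eq_true] at hh
    rcases hh with hh | hh
    · exact ⟨e, List.mem_cons_self, leq_sound _ _ hh.2.1, tleq_sound _ _ hh.2.2⟩
    · obtain ⟨e', h1, h2⟩ := lkp_sound sz Ts h r tok es hh
      exact ⟨e', List.mem_cons_of_mem _ h1, h2⟩

/-- Check one state against the next layer. -/
def ste (C K : ℕ) (sz : List ℕ) (Ts : List (List ℕ)) (next : List (ℕ × ℕ × ℕ))
    (l : List ℕ) (tok : List (List ℕ × ℕ)) : Bool :=
  match l with
  | [] => false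
  | x :: t => gst C K (fun r tok' => lkp sz Ts (hsI r * 4096 + hsT tok') r tok' next) x t tok

/-- Check all the layers. -/
def chk (C : ℕ) (sz : List ℕ) (Ts : List (List ℕ)) : ℕ → List (List (ℕ × ℕ × ℕ)) → Bool
  | 0, l :: _ => l.all (fun e => !(dIt sz e.2.1).isEmpty)
  | K + 1, l :: next :: rest =>
    l.all (fun e => ste C K sz Ts next (dIt sz e.2.1) (dTk Ts e.2.2)) &&
      chk C sz Ts K (next :: rest)
  | _, _ => false

theorem dIt_pos (sz : List ℕ) (hsz : ∀ s ∈ sz, 0 < s) : ∀ (n : ℕ), ∀ y ∈ dIt sz n, 0 < y := by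
  induction sz with
  | nil => intro n y hy; simp [dIt] at hy
  | cons s ss ih =>
    intro n y hy
    simp only [dIt, List.mem_append] at hy
    rcases hy with hy | hy
    · rw [List.eq_of_mem_replicate hy]
      exact hsz s List.mem_cons_self
    · exact ih (fun s' hs' => hsz s' (List.mem_cons_of_mem _ hs')) _ y hy

theorem chk_sound (C : ℕ) (sz : List ℕ) (Ts : List (List ℕ)) (hsz : ∀ s ∈ sz, 0 < s) :
    ∀ (K : ℕ) (l : List (ℕ × ℕ × ℕ)) (rest : List (List (ℕ × ℕ × ℕ))),
    chk C sz Ts K (l :: rest) = true → ∀ e ∈ l, NP C K (dIt sz e.2.1) (dTk Ts e.2.2)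
  | 0, l, rest, h, e, he => by
    simp only [chk, List.all_eq_true] at h
    have h1 := h e he
    intro bs hK hs _ _
    have hb : bs = 0 := Multiset.card_eq_zero.mp hK
    subst hb
    have : dIt sz e.2.1 = [] := by
      have := hs.symm
      simpa using this
    rw [this] at h1
    simp at h1
  | K + 1, l, [], h, e, he => by simp [chk] at h
  | K + 1, l, next :: rest, h, e, he => by
    simp only [chk, Bool.and_eq_true, List.all_eq_true] at h
    obtain ⟨h1, h2⟩ := h
    have h3 := h1 e he
    have ih := chk_sound C sz Ts hsz K next rest h2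
    have hp := dIt_pos sz hsz e.2.1
    revert h3 hp
    generalize dIt sz e.2.1 = l'
    intro h3 hp
    match l', h3, hp with
    | [], h3, _ => simp [ste] at h3
    | x :: t, h3, hp =>
      refine gst_sound C K _ x t _ hp ?_ h3
      intro r tok' hr
      obtain ⟨e', he', f1, f2⟩ := lkp_sound sz Ts _ r tok' next hr
      have := ih e' he'
      rw [f1, f2] at this
      exact this

end Vale.Agent.Lib.P302
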