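import Vale.Agent.Lib.P302.Defs

/-!
# P302: a kernel-friendly certificate of non-packability
-/

namespace Vale.Agent.Lib.P302

/-- The items of the list can be put one after the other into bins with residual capacities in
the multiset. -/
def Pk : List ℕ → Multiset ℕ → Prop
  | [], _ => True
  | s :: t, M => ∃ r ∈ M, s ≤ r ∧ Pk t ((r - s) ::ₘ M.erase r)

/-- Sum of the residuals that are at least `m`. -/
def us (m : ℕ) (l : List ℕ) : ℕ := (l.map (fun r => if m ≤ r then r else 0)).sum

/-- Certificate search: `true` means not packable. `m` is a lower bound for all item sizes. -/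
def np (m : ℕ) : List ℕ → List ℕ → Bool
  | [], _ => false
  | s :: t, l => Nat.blt (us m l) (s + t.sum) ||
      l.dedup.all (fun r => Nat.blt r s || np m t ((r - s) :: l.erase r))

theorem us_perm (m : ℕ) {l l' : List ℕ} (h : l.Perm l') : us m l = us m l' :=
  (h.map _).sum_eq

theorem us_cons (m r : ℕ) (l : List ℕ) : us m (r :: l) = (if m ≤ r then r else 0) + us m l := by
  simp [us]

theorem us_erase (m r : ℕ) (l : List ℕ) (h : r ∈ l) :
    us m l = (if m ≤ r then r else 0) + us m (l.erase r) := by
  rw [us_perm m (List.perm_cons_erase h), us_cons]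

theorem Pk_sum (m : ℕ) : ∀ (t l : List ℕ), (∀ s ∈ t, m ≤ s) → Pk t (l : Multiset ℕ) →
    t.sum ≤ us m l
  | [], l, _, _ => by simp
  | s :: t, l, hm, h => by
    obtain ⟨r, hr, hsr, h2⟩ := h
    have hr' : r ∈ l := by simpa using hr
    have h3 : Pk t (((r - s) :: l.erase r : List ℕ) : Multiset ℕ) := by
      simpa using h2
    have h4 := Pk_sum m t ((r - s) :: l.erase r) (fun x hx => hm x (List.mem_cons_of_mem _ hx)) h3
    have hms : m ≤ s := hm s (List.mem_cons_self)
    rw [us_cons] at h4
    rw [us_erase m r l hr', List.sum_cons]
    have h5 : (if m ≤ r then r else 0) = r := if_pos (le_trans hms hsr)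
    rw [h5]
    split_ifs at h4 <;> omega

theorem np_sound (m : ℕ) : ∀ (t l : List ℕ), (∀ s ∈ t, m ≤ s) → np m t l = true →
    ¬ Pk t (l : Multiset ℕ)
  | [], l, _, h => by simp [np] at h
  | s :: t, l, hm, h => by
    intro hP
    have hsum := Pk_sum m (s :: t) l hm hP
    obtain ⟨r, hr, hsr, h2⟩ := hP
    have hr' : r ∈ l := by simpa using hr
    have h3 : Pk t (((r - s) :: l.erase r : List ℕ) : Multiset ℕ) := by
      simpa using h2
    simp only [np, Bool.or_eq_true, List.all_eq_true, List.mem_dedup] at h
    rcases h with h | h
    · have h' : us m l < s + t.sum := by simpa [Nat.blt_eq] using h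
      rw [List.sum_cons] at hsum
      omega
    · rcases h r hr' with h | h
      · have h' : r < s := by simpa [Nat.blt_eq] using h
        omega
      · exact np_sound m t ((r - s) :: l.erase r)
          (fun x hx => hm x (List.mem_cons_of_mem _ hx)) h h3

/-- From an assignment of items to bins to `Pk`. -/
theorem Pk_of_assign {k : ℕ} : ∀ (t : List ℕ) (res : Fin k → ℕ) (p : Fin t.length → Fin k),
    (∀ j, ∑ i ∈ Finset.univ.filter (fun i => p i = j), t.get i ≤ res j) →
    Pk t (Finset.univ.val.map res)
  | [], _, _, _ => trivial
  | s :: t, res, p, h => by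
    have hsum : ∀ j, ∑ i ∈ Finset.univ.filter (fun i => p i = j), (s :: t).get i
        = (if p ⟨0, by simp⟩ = j then s else 0)
          + ∑ i ∈ Finset.univ.filter (fun i : Fin t.length => p i.succ = j), t.get i := by
      intro j
      rw [Finset.sum_filter, Finset.sum_filter]
      exact Fin.sum_univ_succ (n := t.length)
        (fun i => if p i = j then (s :: t).get i else 0)
    set j0 : Fin k := p ⟨0, by simp⟩ with hj0
    have hs : s ≤ res j0 := by
      have h1 := h j0
      rw [hsum j0] at h1
      simp only [if_true] at h1
      omega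
    refine ⟨res j0, Multiset.mem_map_of_mem res (Finset.mem_univ_val j0), hs, ?_⟩
    have hrec := Pk_of_assign t (Function.update res j0 (res j0 - s)) (fun i => p i.succ) (by
      intro j
      have h1 := h j
      rw [hsum j] at h1
      by_cases hj : j = j0
      · subst hj
        rw [Function.update_self]
        simp only [if_true] at h1
        omega
      · rw [Function.update_of_ne hj]
        rw [if_neg (fun h => hj h.symm)] at h1
        omega)
    have hM : (Finset.univ.val.map (Function.update res j0 (res j0 - s)))
        = (res j0 - s) ::ₘ (Finset.univ.val.map res).erase (res j0) := by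
      have e1 : (Finset.univ : Finset (Fin k)).val
          = j0 ::ₘ ((Finset.univ : Finset (Fin k)).erase j0).val := by
        rw [← Finset.insert_val_of_notMem (Finset.notMem_erase j0 _),
          Finset.insert_erase (Finset.mem_univ j0)]
      rw [e1, Multiset.map_cons, Multiset.map_cons, Function.update_self,
        Multiset.erase_cons_head]
      congr 1
      apply Multiset.map_congr rfl
      intro x hx
      have hx' : x ∈ (Finset.univ : Finset (Fin k)).erase j0 := hx
      rw [Function.update_of_ne (Finset.ne_of_mem_erase hx')]
    rw [hM] at hrec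
    exact hrec

/-- Lower bound for the optimum from the certificate. -/
theorem lt_OPT_of_np (t : List ℕ) (L K m : ℕ) (h0 : ∀ i, 0 < t.get i) (h1 : ∀ i, t.get i ≤ L)
    (hL : 0 < L) (hm : ∀ s ∈ t, m ≤ s) (hnp : np m t (List.replicate K L) = true) :
    K < OPT (ofNat t.get L h0 h1 hL) := by
  have key : ∀ k, k ≤ K → ¬ ∃ p : Fin t.length → Fin k,
      IsPacking (ofNat t.get L h0 h1 hL) k p := by
    rintro k hk ⟨p, hp⟩
    have hp' : ∀ j : Fin K, ∑ i ∈ Finset.univ.filter (fun i => Fin.castLE hk (p i) = j), t.get i
        ≤ L := by
      intro j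
      by_cases hj : (j : ℕ) < k
      · have h2 := hp ⟨j, hj⟩
        have e : (Finset.univ.filter (fun i => Fin.castLE hk (p i) = j))
            = Finset.univ.filter (fun i => p i = ⟨j, hj⟩) := by
          apply Finset.filter_congr
          intro i _
          constructor
          · intro h
            apply Fin.ext
            have := congrArg Fin.val h
            simpa using this
          · intro h
            apply Fin.ext
            rw [h]
            rfl
        rw [e]
        have hL' : (0 : ℚ) < (L : ℚ) := by exact_mod_cast hL
        have h3 : ∑ i ∈ Finset.univ.filter (fun i => p i = ⟨j, hj⟩), ((t.get i : ℕ) : ℚ) / (L : ℚ)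
            ≤ 1 := h2
        rw [← Finset.sum_div, div_le_one hL'] at h3
        exact_mod_cast h3
      · have e : (Finset.univ.filter (fun i => Fin.castLE hk (p i) = j)) = ∅ := by
          apply Finset.filter_eq_empty_iff.mpr
          intro i _ h
          apply hj
          rw [← h]
          exact (p i).2
        rw [e]
        simp
    have hPk := Pk_of_assign t (fun _ : Fin K => L) (fun i => Fin.castLE hk (p i)) hp'
    have e2 : (Finset.univ.val.map (fun _ : Fin K => L)) = ((List.replicate K L : List ℕ) :
        Multiset ℕ) := by
      rw [Multiset.map_const', Multiset.coe_replicate]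
      congr 1
      simp
    rw [e2] at hPk
    exact np_sound m t _ hm hnp hPk
  have hne : {k | ∃ p : Fin t.length → Fin k, IsPacking (ofNat t.get L h0 h1 hL) k p}.Nonempty := by
    refine ⟨t.length, id, ?_⟩
    intro j
    have e : (Finset.univ.filter (fun i : Fin t.length => id i = j)) = {j} := by
      ext i; simp
    change ∑ i ∈ Finset.univ.filter (fun i : Fin t.length => id i = j),
      ((t.get i : ℕ) : ℚ) / (L : ℚ) ≤ 1
    rw [e, Finset.sum_singleton]
    exact (ofNat t.get L h0 h1 hL).le_one j
  by_contra hcon
  exact key _ (not_lt.mp hcon) (Nat.sInf_mem hne)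

end Vale.Agent.Lib.P302
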