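import Vale.Agent.Lib.P302.Search

/-!
# P302: a two-level certificate of non-packability

Level one: items are replaced by types with rounded sizes; a search over count vectors shows that
every packing contains, for some class, all its pure bins. Level two: the items of one class
cannot be packed into the pure bins of this class.
-/

namespace Vale.Agent.Lib.P302

/-- Scalar product of two lists. -/
def dot : List ℕ → List ℕ → ℕ
  | a :: as, c :: cs => a * c + dot as cs
  | _, _ => 0

/-- Componentwise difference. -/
def lsub : List ℕ → List ℕ → List ℕ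
  | a :: as, c :: cs => (a - c) :: lsub as cs
  | l, _ => l

/-- Equality test of lists. -/
def leq : List ℕ → List ℕ → Bool
  | [], [] => true
  | a :: as, c :: cs => Nat.beq a c && leq as cs
  | _, _ => false

/-- Some entry is positive. -/
def anyPos : List ℕ → Bool
  | [] => false
  | a :: as => Nat.blt 0 a || anyPos as

/-- Some entry is zero. -/
def anyZero : List ℕ → Bool
  | [] => false
  | a :: as => Nat.beq a 0 || anyZero as

/-- All lists `p ≤ cnt` with `dot a p ≤ r ≤ W + dot a p`. -/
def pats (W : ℕ) : List ℕ → List ℕ → ℕ → List (List ℕ)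
  | a :: as, c :: cs, r =>
      cond (Nat.ble r (W + dot (a :: as) (c :: cs)))
        ((List.range (c + 1)).flatMap (fun k =>
          cond (Nat.ble (a * k) r) ((pats W as cs (r - a * k)).map (fun p => k :: p)) []))
        []
  | _, _, r => cond (Nat.ble r W) [[]] []

/-- The patterns that contain the first type with positive count. -/
def fpats (W : ℕ) : List ℕ → List ℕ → ℕ → List (List ℕ)
  | a :: as, c :: cs, r =>
      cond (Nat.beq c 0) ((fpats W as cs r).map (fun p => 0 :: p))
        ((List.range c).flatMap (fun k =>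
          cond (Nat.ble (a * (k + 1)) r)
            ((pats W as cs (r - a * (k + 1))).map (fun p => (k + 1) :: p)) []))
  | _, _, _ => []

/-- Update of the numbers of missing pure bins. -/
def upd : List (List ℕ) → List ℕ → List ℕ → List ℕ
  | c :: cs, p, l :: ls => cond (leq c p) (l - 1) l :: upd cs p ls
  | _, _, ls => ls

/-- The search: `b` bins, remaining counts `cnt`, missing pure bins `pl`. -/
def srch (a : List ℕ) (L1 : ℕ) (cls : List (List ℕ)) : ℕ → List ℕ → List ℕ → Bool
  | 0, cnt, pl => anyZero pl || anyPos cnt
  | b + 1, cnt, pl => anyZero pl || (anyPos cnt &&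
      (fpats ((b + 1) * L1 - dot a cnt) a cnt L1).all
        (fun p => srch a L1 cls b (lsub cnt p) (upd cls p pl)))

theorem leq_iff : ∀ l m : List ℕ, leq l m = true ↔ l = m
  | [], [] => by simp [leq]
  | [], _ :: _ => by simp [leq]
  | _ :: _, [] => by simp [leq]
  | a :: as, c :: cs => by
    simp only [leq, Bool.and_eq_true, leq_iff as cs, List.cons.injEq, Nat.beq_eq]

theorem anyPos_iff : ∀ l : List ℕ, anyPos l = true ↔ ∃ i, 0 < l.getD i 0
  | [] => by simp [anyPos]
  | a :: as => by
    simp only [anyPos, Bool.or_eq_true, anyPos_iff as, Nat.blt_eq]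
    constructor
    · rintro (h | ⟨i, h⟩)
      · exact ⟨0, by simpa using h⟩
      · exact ⟨i + 1, by simpa using h⟩
    · rintro ⟨i, h⟩
      cases i with
      | zero => left; simpa using h
      | succ i => right; exact ⟨i, by simpa using h⟩

theorem anyZero_ex : ∀ l : List ℕ, anyZero l = true → ∃ i, i < l.length ∧ l.getD i 0 = 0
  | [] => by simp [anyZero]
  | a :: as => by
    intro h
    simp only [anyZero, Bool.or_eq_true, Nat.beq_eq] at h
    rcases h with h | h
    · exact ⟨0, by simp, by simpa using h⟩
    · obtain ⟨i, h1, h2⟩ := anyZero_ex as h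
      exact ⟨i + 1, by simpa using h1, by simpa using h2⟩

theorem getD_lsub : ∀ (l p : List ℕ) (i : ℕ), (lsub l p).getD i 0 = l.getD i 0 - p.getD i 0
  | [], p, i => by simp [lsub]
  | a :: as, [], i => by simp [lsub]
  | a :: as, c :: cs, i => by
    cases i with
    | zero => simp [lsub]
    | succ i => simpa [lsub] using getD_lsub as cs i

theorem length_lsub : ∀ (l p : List ℕ), (lsub l p).length = l.length
  | [], p => by simp [lsub]
  | a :: as, [] => by simp [lsub]
  | a :: as, c :: cs => by simp [lsub, length_lsub as cs]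

theorem length_upd : ∀ (cs : List (List ℕ)) (p ls : List ℕ), (upd cs p ls).length = ls.length
  | [], p, ls => by simp [upd]
  | c :: cs, p, [] => by simp [upd]
  | c :: cs, p, l :: ls => by simp [upd, length_upd cs p ls]

theorem getD_upd : ∀ (cs : List (List ℕ)) (p ls : List ℕ) (i : ℕ), i < cs.length →
    ls.length = cs.length →
    (upd cs p ls).getD i 0 = if cs.getD i [] = p then ls.getD i 0 - 1 else ls.getD i 0
  | [], p, ls, i, h, _ => by simp at h
  | c :: cs, p, [], i, _, h => by simp at h
  | c :: cs, p, l :: ls, i, h, h2 => by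
    cases i with
    | zero =>
      simp only [upd, List.getD_cons_zero]
      by_cases hc : c = p
      · have h3 : leq c p = true := (leq_iff c p).mpr hc
        rw [h3, if_pos hc]
        rfl
      · have : leq c p = false := by
          rw [← Bool.not_eq_true, leq_iff]
          exact hc
        simp [this, hc]
    | succ i =>
      simp only [upd, List.getD_cons_succ]
      exact getD_upd cs p ls i (by simpa using h) (by simpa using h2)

theorem dot_eq : ∀ (a p : List ℕ), dot a p
    = ∑ i ∈ Finset.range a.length, a.getD i 0 * p.getD i 0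
  | [], p => by simp [dot]
  | a :: as, [] => by simp [dot]
  | a :: as, c :: cs => by
    rw [dot, dot_eq as cs, List.length_cons, Finset.sum_range_succ']
    simp [add_comm]

theorem dot_mono (a p c : List ℕ) (h : ∀ i, p.getD i 0 ≤ c.getD i 0) : dot a p ≤ dot a c := by
  rw [dot_eq, dot_eq]
  exact Finset.sum_le_sum (fun i _ => Nat.mul_le_mul_left _ (h i))

theorem tail_le {k c : ℕ} {ps cs : List ℕ} (h : ∀ i, (k :: ps).getD i 0 ≤ (c :: cs).getD i 0) :
    ∀ i, ps.getD i 0 ≤ cs.getD i 0 := fun i => by simpa using h (i + 1)

theorem mem_pats (W : ℕ) : ∀ (a cnt : List ℕ) (r : ℕ) (p : List ℕ), cnt.length = a.length →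
    p.length = a.length → (∀ i, p.getD i 0 ≤ cnt.getD i 0) → dot a p ≤ r → r ≤ W + dot a p →
    p ∈ pats W a cnt r
  | [], cnt, r, p, hc, hp, _, _, h2 => by
    have hp' : p = [] := List.eq_nil_of_length_eq_zero (by simpa using hp)
    have hc' : cnt = [] := List.eq_nil_of_length_eq_zero (by simpa using hc)
    subst hp' hc'
    have h3 : r ≤ W := by simpa [dot] using h2
    have h4 : Nat.ble r W = true := by simpa using h3
    simp [pats, h4]
  | a :: as, [], r, p, hc, _, _, _, _ => by simp at hc
  | a :: as, c :: cs, r, [], _, hp, _, _, _ => by simp at hp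
  | a :: as, c :: cs, r, k :: ps, hc, hp, hle, h1, h2 => by
    have hk : k ≤ c := by simpa using hle 0
    have hd : dot (a :: as) (k :: ps) = a * k + dot as ps := rfl
    have hm := dot_mono (a :: as) (k :: ps) (c :: cs) hle
    have hb : Nat.ble r (W + dot (a :: as) (c :: cs)) = true := by
      rw [Nat.ble_eq]; omega
    have hb2 : Nat.ble (a * k) r = true := by
      rw [Nat.ble_eq]; omega
    have ih := mem_pats W as cs (r - a * k) ps (by simpa using hc) (by simpa using hp)
      (tail_le hle) (by omega) (by omega)
    rw [pats, hb, cond_true, List.mem_flatMap]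
    refine ⟨k, by simp only [List.mem_range]; omega, ?_⟩
    rw [hb2, cond_true, List.mem_map]
    exact ⟨ps, ih, rfl⟩

theorem mem_fpats (W : ℕ) : ∀ (a cnt : List ℕ) (r : ℕ) (p : List ℕ) (f : ℕ),
    cnt.length = a.length → p.length = a.length → (∀ i, p.getD i 0 ≤ cnt.getD i 0) →
    (∀ i < f, cnt.getD i 0 = 0) → 0 < p.getD f 0 → dot a p ≤ r → r ≤ W + dot a p →
    p ∈ fpats W a cnt r
  | [], cnt, r, p, f, _, hp, _, _, hf, _, _ => by
    have hp' : p = [] := List.eq_nil_of_length_eq_zero (by simpa using hp)
    subst hp'
    simp at hf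
  | a :: as, [], r, p, f, hc, _, _, _, _, _, _ => by simp at hc
  | a :: as, c :: cs, r, [], f, _, hp, _, _, _, _, _ => by simp at hp
  | a :: as, c :: cs, r, k :: ps, f, hc, hp, hle, hf0, hf, h1, h2 => by
    have hk : k ≤ c := by simpa using hle 0
    have hd : dot (a :: as) (k :: ps) = a * k + dot as ps := rfl
    by_cases hc0 : c = 0
    · have hk0 : k = 0 := by omega
      subst hc0 hk0
      have hb : Nat.beq 0 0 = true := rfl
      rw [fpats, hb, cond_true, List.mem_map]
      cases f with
      | zero => simp at hf
      | succ f =>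
        refine ⟨ps, ?_, rfl⟩
        refine mem_fpats W as cs r ps f (by simpa using hc) (by simpa using hp) (tail_le hle)
          (fun i hi => by simpa using hf0 (i + 1) (by omega)) (by simpa using hf) ?_ ?_
        · rw [hd] at h1; omega
        · rw [hd] at h2; omega
    · have hf' : f = 0 := by
        by_contra hne
        have := hf0 0 (by omega)
        simp at this
        exact hc0 this
      subst hf'
      have hkp : 0 < k := by simpa using hf
      have hb : Nat.beq c 0 = false := by
        rw [← Bool.not_eq_true, Nat.beq_eq]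
        exact hc0
      have hk1 : k - 1 + 1 = k := by omega
      have hb2 : Nat.ble (a * (k - 1 + 1)) r = true := by
        rw [Nat.ble_eq, hk1]; omega
      have ih := mem_pats W as cs (r - a * (k - 1 + 1)) ps (by simpa using hc)
        (by simpa using hp) (tail_le hle) (by rw [hk1]; omega) (by rw [hk1]; omega)
      rw [fpats, hb, cond_false, List.mem_flatMap]
      refine ⟨k - 1, by simp only [List.mem_range]; omega, ?_⟩
      rw [hb2, cond_true, List.mem_map]
      exact ⟨ps, ih, by rw [hk1]⟩

theorem sum_dot (a : List ℕ) (S : Multiset (List ℕ)) : (S.map (dot a)).sum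
    = ∑ i ∈ Finset.range a.length, a.getD i 0 * (S.map (fun p => p.getD i 0)).sum := by
  induction S using Multiset.induction_on with
  | empty => simp
  | cons p S ih =>
    simp only [Multiset.map_cons, Multiset.sum_cons, ih, mul_add, Finset.sum_add_distrib]
    rw [dot_eq]

theorem srch_sound (a : List ℕ) (L1 : ℕ) (cls : List (List ℕ)) : ∀ (b : ℕ) (cnt pl : List ℕ)
    (S : Multiset (List ℕ)), srch a L1 cls b cnt pl = true → pl.length = cls.length →
    cnt.length = a.length → Multiset.card S = b → (∀ p ∈ S, p.length = a.length) →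
    (∀ p ∈ S, dot a p ≤ L1) → (∀ i, (S.map (fun p => p.getD i 0)).sum = cnt.getD i 0) →
    ∃ c, c < cls.length ∧ pl.getD c 0 ≤ S.count (cls.getD c [])
  | 0, cnt, pl, S, h, hpl, hcl, hS, _, _, hsum => by
    have hS0 : S = 0 := Multiset.card_eq_zero.mp hS
    subst hS0
    simp only [srch, Bool.or_eq_true] at h
    rcases h with h | h
    · obtain ⟨c, hc, hc2⟩ := anyZero_ex _ h
      exact ⟨c, by omega, by omega⟩
    · obtain ⟨i, hi⟩ := (anyPos_iff _).mp h
      have h1 := hsum i
      rw [Multiset.map_zero, Multiset.sum_zero] at h1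
      omega
  | b + 1, cnt, pl, S, h, hpl, hcl, hS, hlen, hdot, hsum => by
    simp only [srch, Bool.or_eq_true, Bool.and_eq_true] at h
    rcases h with h | ⟨h, hall⟩
    · obtain ⟨c, hc, hc2⟩ := anyZero_ex _ h
      exact ⟨c, by omega, by omega⟩
    · have hex := (anyPos_iff _).mp h
      classical
      set f := Nat.find hex with hf
      have hff : 0 < cnt.getD f 0 := Nat.find_spec hex
      have hfm : ∀ i < f, cnt.getD i 0 = 0 := fun i hi => by
        have := Nat.find_min hex hi
        omega
      have hp : ∃ p ∈ S, 0 < p.getD f 0 := by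
        by_contra hcon
        push Not at hcon
        have h0 : (S.map (fun p => p.getD f 0)).sum = 0 := by
          apply Multiset.sum_eq_zero
          intro x hx
          obtain ⟨p, hp, rfl⟩ := Multiset.mem_map.mp hx
          have := hcon p hp
          omega
        rw [hsum f] at h0
        omega
      obtain ⟨p, hpS, hpf⟩ := hp
      obtain ⟨S', rfl⟩ := Multiset.exists_cons_of_mem hpS
      have hsum' : ∀ i, p.getD i 0 + (S'.map (fun p => p.getD i 0)).sum = cnt.getD i 0 := by
        intro i
        have := hsum i
        simpa using this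
      have hple : ∀ i, p.getD i 0 ≤ cnt.getD i 0 := fun i => by
        have := hsum' i
        omega
      have hcard : Multiset.card S' = b := by
        simpa using hS
      -- the waste
      have hW : L1 ≤ ((b + 1) * L1 - dot a cnt) + dot a p := by
        have h1 : dot a cnt = dot a p + (S'.map (dot a)).sum := by
          rw [sum_dot, dot_eq, dot_eq, ← Finset.sum_add_distrib]
          apply Finset.sum_congr rfl
          intro i _
          rw [← mul_add, hsum' i]
        have h2 : (S'.map (dot a)).sum ≤ b * L1 := by
          have := Multiset.sum_le_card_nsmul (S'.map (dot a)) L1 (by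
            intro x hx
            obtain ⟨y, hy, rfl⟩ := Multiset.mem_map.mp hx
            exact hdot y (Multiset.mem_cons_of_mem hy))
          simpa [hcard] using this
        have h3 : (b + 1) * L1 = b * L1 + L1 := by ring
        omega
      have hmem : p ∈ fpats ((b + 1) * L1 - dot a cnt) a cnt L1 :=
        mem_fpats _ a cnt L1 p f hcl (hlen p hpS) hple hfm hpf (hdot p hpS) hW
      have hrec := List.all_eq_true.mp hall p hmem
      obtain ⟨c, hc, hc2⟩ := srch_sound a L1 cls b (lsub cnt p) (upd cls p pl) S' hrec
        (by rw [length_upd, hpl]) (by rw [length_lsub, hcl]) hcard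
        (fun x hx => hlen x (Multiset.mem_cons_of_mem hx))
        (fun x hx => hdot x (Multiset.mem_cons_of_mem hx))
        (fun i => by
          rw [getD_lsub]
          have := hsum' i
          omega)
      refine ⟨c, hc, ?_⟩
      rw [getD_upd cls p pl c hc hpl] at hc2
      rw [Multiset.count_cons]
      split_ifs at hc2 ⊢ <;> omega

/-- One class: the items of the class cannot be packed into its `q` pure bins. -/
def ClsOK {n : ℕ} (s ty : Fin n → ℕ) (L : ℕ) (cnt pure : List ℕ) (q : ℕ) : Prop :=
  (∀ i < pure.length, 0 < pure.getD i 0 → cnt.getD i 0 = q * pure.getD i 0) ∧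
  anyPos pure = true ∧
  ∃ (t : List ℕ) (m : ℕ) (e : Fin t.length → Fin n), Function.Injective e ∧
    (∀ y, s (e y) = t.get y) ∧ (∀ y, 0 < pure.getD (ty (e y)) 0) ∧ (∀ x ∈ t, m ≤ x) ∧
    np m t (List.replicate q L) = true

/-- The pattern of a bin. -/
def pat {n K : ℕ} (T : ℕ) (ty : Fin n → ℕ) (p : Fin n → Fin K) (j : Fin K) : List ℕ :=
  (List.range T).map (fun i => (Finset.univ.filter (fun x => p x = j ∧ ty x = i)).card)

theorem pat_length {n K : ℕ} (T : ℕ) (ty : Fin n → ℕ) (p : Fin n → Fin K) (j : Fin K) :
    (pat T ty p j).length = T := by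
  simp [pat]

theorem pat_getD {n K : ℕ} (T : ℕ) (ty : Fin n → ℕ) (p : Fin n → Fin K) (j : Fin K) (i : ℕ)
    (hi : i < T) : (pat T ty p j).getD i 0
      = (Finset.univ.filter (fun x => p x = j ∧ ty x = i)).card := by
  simp [pat, List.getD_eq_getElem?_getD, hi]

theorem pat_getD_ge {n K : ℕ} (T : ℕ) (ty : Fin n → ℕ) (p : Fin n → Fin K) (j : Fin K) (i : ℕ)
    (hi : T ≤ i) : (pat T ty p j).getD i 0 = 0 := by
  simp [pat, List.getD_eq_getElem?_getD, hi]

theorem cls_contra {n K : ℕ} (s ty : Fin n → ℕ) (L : ℕ) (a cnt : List ℕ)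
    (hty : ∀ x, ty x < a.length) (p : Fin n → Fin K)
    (hp : ∀ j, ∑ i ∈ Finset.univ.filter (fun i => p i = j), s i ≤ L)
    (hcnt : ∀ i < a.length, (Finset.univ.filter (fun x => ty x = i)).card = cnt.getD i 0)
    (pure : List ℕ) (q : ℕ) (hC : ClsOK s ty L cnt pure q)
    (hq : q ≤ (Finset.univ.filter (fun j => pat a.length ty p j = pure)).card) : False := by
  classical
  obtain ⟨hpq, hany, t, m, e, he, hse, hte, hm, hnp⟩ := hC
  set J := Finset.univ.filter (fun j => pat a.length ty p j = pure) with hJ
  have hpq' : ∀ i, 0 < pure.getD i 0 → cnt.getD i 0 = q * pure.getD i 0 := by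
    intro i hi
    by_cases hl : i < pure.length
    · exact hpq i hl hi
    · rw [List.getD_eq_default _ _ (by omega)] at hi
      omega
  -- sum over bins
  have hsumj : ∀ i < a.length, ∑ j, (pat a.length ty p j).getD i 0 = cnt.getD i 0 := by
    intro i hi
    rw [← hcnt i hi]
    have h1 : ∀ j ∈ (Finset.univ : Finset (Fin K)), (pat a.length ty p j).getD i 0
        = ((Finset.univ.filter (fun x => ty x = i)).filter (fun x => p x = j)).card := by
      intro j _
      rw [pat_getD _ _ _ _ _ hi, Finset.filter_filter]
      congr 1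
      apply Finset.filter_congr
      intro x _
      exact and_comm
    rw [Finset.sum_congr rfl h1]
    exact (Finset.card_eq_sum_card_fiberwise (fun x _ => Finset.mem_coe.mpr
      (Finset.mem_univ (p x)))).symm
  have hJpure : ∀ j ∈ J, pat a.length ty p j = pure := fun j hj => (Finset.mem_filter.mp hj).2
  -- every bin containing an item of the class is pure
  have hin : ∀ x, 0 < pure.getD (ty x) 0 → p x ∈ J := by
    intro x hx
    by_contra hcon
    have h1 := hsumj (ty x) (hty x)
    rw [hpq' _ hx] at h1
    have h2 : ∑ j ∈ insert (p x) J, (pat a.length ty p j).getD (ty x) 0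
        ≤ ∑ j, (pat a.length ty p j).getD (ty x) 0 :=
      Finset.sum_le_sum_of_subset (Finset.subset_univ _)
    rw [Finset.sum_insert hcon] at h2
    have h3 : ∑ j ∈ J, (pat a.length ty p j).getD (ty x) 0 = J.card * pure.getD (ty x) 0 := by
      rw [Finset.sum_congr rfl (fun j hj => by rw [hJpure j hj]), Finset.sum_const, smul_eq_mul]
    have h4 : 0 < (pat a.length ty p (p x)).getD (ty x) 0 := by
      rw [pat_getD _ _ _ _ _ (hty x), Finset.card_pos]
      exact ⟨x, by simp⟩
    have h5 : q * pure.getD (ty x) 0 ≤ J.card * pure.getD (ty x) 0 := Nat.mul_le_mul_right _ hq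
    omega
  have hJq : J.card ≤ q := by
    obtain ⟨i, hi⟩ := (anyPos_iff _).mp hany
    by_cases hl : i < a.length
    · have h1 := hsumj i hl
      rw [hpq' _ hi] at h1
      have h2 : ∑ j ∈ J, (pat a.length ty p j).getD i 0
          ≤ ∑ j, (pat a.length ty p j).getD i 0 :=
        Finset.sum_le_sum_of_subset (Finset.subset_univ _)
      rw [h1, Finset.sum_congr rfl (fun j hj => by rw [hJpure j hj]), Finset.sum_const,
        smul_eq_mul] at h2
      exact Nat.le_of_mul_le_mul_right h2 hi
    · by_contra hcon
      have hne : J.Nonempty := Finset.card_pos.mp (by omega)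
      obtain ⟨j, hj⟩ := hne
      rw [← hJpure j hj, pat_getD_ge _ _ _ _ _ (by omega)] at hi
      omega
  -- an injection of J into Fin q
  by_cases ht : t = []
  · subst ht
    simp [np] at hnp
  have hq0 : 0 < q := by
    by_contra hcon
    have hJ0 : J.card = 0 := by omega
    have hlen : 0 < t.length := List.length_pos_iff.mpr ht
    have := hin (e ⟨0, hlen⟩) (hte _)
    rw [Finset.card_eq_zero.mp hJ0] at this
    simp at this
  obtain ⟨g, hg⟩ : ∃ g : Fin K → Fin q, Set.InjOn g (J : Set (Fin K)) := by
    have hcard : Fintype.card J ≤ Fintype.card (Fin q) := by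
      simpa using hJq
    obtain ⟨g⟩ := Function.Embedding.nonempty_of_card_le hcard
    refine ⟨fun j => if h : j ∈ J then g ⟨j, h⟩ else ⟨0, hq0⟩, ?_⟩
    intro x hx y hy hxy
    have hx' : x ∈ J := hx
    have hy' : y ∈ J := hy
    simp only [hx', hy', dif_pos] at hxy
    have := g.injective hxy
    exact congrArg Subtype.val this
  have hPk := Pk_of_assign t (fun _ : Fin q => L) (fun y => g (p (e y))) (by
    intro j'
    by_cases hex : ∃ j ∈ J, g j = j'
    · obtain ⟨j, hjJ, hgj⟩ := hex
      have h1 : ∑ y ∈ Finset.univ.filter (fun y => g (p (e y)) = j'), t.get y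
          = ∑ x ∈ (Finset.univ.filter (fun y => g (p (e y)) = j')).map ⟨e, he⟩, s x := by
        rw [Finset.sum_map]
        exact Finset.sum_congr rfl (fun y _ => (hse y).symm)
      rw [h1]
      refine (Finset.sum_le_sum_of_subset ?_).trans (hp j)
      intro x hx
      obtain ⟨y, hy, rfl⟩ := Finset.mem_map.mp hx
      have hy' := (Finset.mem_filter.mp hy).2
      refine Finset.mem_filter.mpr ⟨Finset.mem_univ _, ?_⟩
      exact hg (hin (e y) (hte y)) hjJ (by rw [hgj]; exact hy')
    · have h1 : Finset.univ.filter (fun y => g (p (e y)) = j') = ∅ := by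
        apply Finset.filter_eq_empty_iff.mpr
        intro y _ hy
        exact hex ⟨p (e y), hin (e y) (hte y), hy⟩
      rw [h1]
      simp)
  have e2 : (Finset.univ.val.map (fun _ : Fin q => L)) = ((List.replicate q L : List ℕ) :
      Multiset ℕ) := by
    rw [Multiset.map_const', Multiset.coe_replicate]
    congr 1
    simp
  rw [e2] at hPk
  exact np_sound m t _ hm hnp hPk

theorem no_packing {n K : ℕ} (s ty : Fin n → ℕ) (L : ℕ) (a : List ℕ) (L1 M e : ℕ)
    (cnt : List ℕ) (cls : List (List ℕ)) (q : List ℕ)
    (hty : ∀ x, ty x < a.length)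
    (hs : ∀ x, M * a.getD (ty x) 0 ≤ s x + e)
    (hM : L + n * e < M * (L1 + 1))
    (hcl : cnt.length = a.length)
    (hcnt : ∀ i < a.length, (Finset.univ.filter (fun x => ty x = i)).card = cnt.getD i 0)
    (hsr : srch a L1 cls K cnt q = true)
    (hcls : List.Forall₂ (ClsOK s ty L cnt) cls q)
    (p : Fin n → Fin K)
    (hp : ∀ j, ∑ i ∈ Finset.univ.filter (fun i => p i = j), s i ≤ L) : False := by
  classical
  set S : Multiset (List ℕ) := (Finset.univ : Finset (Fin K)).val.map (pat a.length ty p) with hS
  have hcard : Multiset.card S = K := by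
    rw [hS, Multiset.card_map]
    simp
  have hlen : ∀ x ∈ S, x.length = a.length := by
    intro x hx
    obtain ⟨j, _, rfl⟩ := Multiset.mem_map.mp hx
    exact pat_length _ _ _ _
  have hdot : ∀ x ∈ S, dot a x ≤ L1 := by
    intro x hx
    obtain ⟨j, _, rfl⟩ := Multiset.mem_map.mp hx
    have h1 : dot a (pat a.length ty p j)
        = ∑ x ∈ Finset.univ.filter (fun x => p x = j), a.getD (ty x) 0 := by
      rw [dot_eq]
      have h2 : ∀ i ∈ Finset.range a.length, a.getD i 0 * (pat a.length ty p j).getD i 0
          = ∑ x ∈ (Finset.univ.filter (fun x => p x = j)).filter (fun x => ty x = i),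
            a.getD (ty x) 0 := by
        intro i hi
        rw [pat_getD _ _ _ _ _ (Finset.mem_range.mp hi), Finset.filter_filter,
          Finset.sum_congr rfl (g := fun _ => a.getD i 0)
            (fun x hx => by rw [(Finset.mem_filter.mp hx).2.2]), Finset.sum_const, smul_eq_mul,
          mul_comm]
      rw [Finset.sum_congr rfl h2]
      exact Finset.sum_fiberwise_of_maps_to (fun x _ => Finset.mem_range.mpr (hty x)) _
    have h3 : M * dot a (pat a.length ty p j)
        ≤ ∑ x ∈ Finset.univ.filter (fun x => p x = j), (s x + e) := by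
      rw [h1, Finset.mul_sum]
      exact Finset.sum_le_sum (fun x _ => hs x)
    rw [Finset.sum_add_distrib, Finset.sum_const, smul_eq_mul] at h3
    have h4 : (Finset.univ.filter (fun x => p x = j)).card * e ≤ n * e := by
      apply Nat.mul_le_mul_right
      exact (Finset.card_le_univ _).trans (by simp)
    have h5 := hp j
    have h6 : M * dot a (pat a.length ty p j) < M * (L1 + 1) := by omega
    have h7 := Nat.lt_of_mul_lt_mul_left h6
    omega
  have hsum : ∀ i, (S.map (fun x => x.getD i 0)).sum = cnt.getD i 0 := by
    intro i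
    have h0 : (S.map (fun x => x.getD i 0)).sum = ∑ j, (pat a.length ty p j).getD i 0 := by
      rw [hS, Multiset.map_map]
      rfl
    rw [h0]
    by_cases hi : i < a.length
    · rw [← hcnt i hi]
      have h1 : ∀ j ∈ (Finset.univ : Finset (Fin K)), (pat a.length ty p j).getD i 0
          = ((Finset.univ.filter (fun x => ty x = i)).filter (fun x => p x = j)).card := by
        intro j _
        rw [pat_getD _ _ _ _ _ hi, Finset.filter_filter]
        congr 1
        apply Finset.filter_congr
        intro x _
        exact and_comm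
      rw [Finset.sum_congr rfl h1]
      exact (Finset.card_eq_sum_card_fiberwise (fun x _ => Finset.mem_coe.mpr
        (Finset.mem_univ (p x)))).symm
    · rw [List.getD_eq_default _ _ (by omega)]
      exact Finset.sum_eq_zero (fun j _ => pat_getD_ge _ _ _ _ _ (by omega))
  obtain ⟨c, hc, hc2⟩ := srch_sound a L1 cls K cnt q S hsr hcls.length_eq.symm hcl hcard hlen
    hdot hsum
  have hcq : c < q.length := by rw [← hcls.length_eq]; exact hc
  have hC : ClsOK s ty L cnt (cls.getD c []) (q.getD c 0) := by
    have := hcls.get hc hcq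
    rw [List.getD_eq_getElem _ _ hc, List.getD_eq_getElem _ _ hcq]
    exact this
  refine cls_contra s ty L a cnt hty p hp hcnt _ _ hC ?_
  refine hc2.trans (le_of_eq ?_)
  rw [hS, Multiset.count_map, Finset.card_def, Finset.filter_val]
  congr 1
  apply Multiset.filter_congr
  intro x _
  exact eq_comm

/-- Lower bound for the optimum from the two-level certificate. -/
theorem lt_OPT_of_two_level {n : ℕ} (s : Fin n → ℕ) (L K : ℕ) (h0 : ∀ i, 0 < s i)
    (h1 : ∀ i, s i ≤ L) (hL : 0 < L) (ty : Fin n → ℕ) (a : List ℕ) (L1 M e : ℕ)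
    (cnt : List ℕ) (cls : List (List ℕ)) (q : List ℕ)
    (hty : ∀ x, ty x < a.length)
    (hs : ∀ x, M * a.getD (ty x) 0 ≤ s x + e)
    (hM : L + n * e < M * (L1 + 1))
    (hcl : cnt.length = a.length)
    (hcnt : ∀ i < a.length, (Finset.univ.filter (fun x => ty x = i)).card = cnt.getD i 0)
    (hsr : srch a L1 cls K cnt q = true)
    (hcls : List.Forall₂ (ClsOK s ty L cnt) cls q) :
    K < OPT (ofNat s L h0 h1 hL) := by
  have key : ∀ k, k ≤ K → ¬ ∃ p : Fin n → Fin k, IsPacking (ofNat s L h0 h1 hL) k p := by
    rintro k hk ⟨p, hp⟩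
    refine no_packing s ty L a L1 M e cnt cls q hty hs hM hcl hcnt hsr hcls
      (fun i => Fin.castLE hk (p i)) ?_
    intro j
    by_cases hj : (j : ℕ) < k
    · have h2 := hp ⟨j, hj⟩
      have e1 : (Finset.univ.filter (fun i => Fin.castLE hk (p i) = j))
          = Finset.univ.filter (fun i => p i = ⟨j, hj⟩) := by
        apply Finset.filter_congr
        intro i _
        constructor
        · intro h
          apply Fin.ext
          have := congrArg Fin.val h
          simpa using this
        · intro h
          apply Fin.ext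
          rw [h]
          rfl
      rw [e1]
      have hL' : (0 : ℚ) < (L : ℚ) := by exact_mod_cast hL
      have h3 : ∑ i ∈ Finset.univ.filter (fun i => p i = ⟨j, hj⟩), ((s i : ℕ) : ℚ) / (L : ℚ)
          ≤ 1 := h2
      rw [← Finset.sum_div, div_le_one hL'] at h3
      exact_mod_cast h3
    · have e1 : (Finset.univ.filter (fun i => Fin.castLE hk (p i) = j)) = ∅ := by
        apply Finset.filter_eq_empty_iff.mpr
        intro i _ h
        apply hj
        rw [← h]
        exact (p i).2
      rw [e1]
      simp
  have hne : {k | ∃ p : Fin n → Fin k, IsPacking (ofNat s L h0 h1 hL) k p}.Nonempty := by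
    refine ⟨n, id, ?_⟩
    intro j
    have e1 : (Finset.univ.filter (fun i : Fin n => id i = j)) = {j} := by
      ext i; simp
    change ∑ i ∈ Finset.univ.filter (fun i : Fin n => id i = j), ((s i : ℕ) : ℚ) / (L : ℚ) ≤ 1
    rw [e1, Finset.sum_singleton]
    exact (ofNat s L h0 h1 hL).le_one j
  by_contra hcon
  exact key _ (not_lt.mp hcon) (Nat.sInf_mem hne)

end Vale.Agent.Lib.P302
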