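import Vale.Agent.Lib.P302.Defs

/-!
# P302: two-level certificate of non-packability
-/

namespace Vale.Agent.Lib.P302

/-- Enumerate the sub-multisets of a list (grouped) of total at most `cap`, as pairs
(taken, rest), and test `f` on all of them. -/
def subsAll : ℕ → List ℕ → ℕ → (List ℕ → List ℕ → Bool) → Bool
  | _, [], _, f => f [] []
  | skip, x :: t, cap, f =>
    ((x == skip || Nat.blt cap x) || subsAll skip t (cap - x) (fun tk r => f (x :: tk) r)) &&
      subsAll x t cap (fun tk r => f tk (x :: r))

theorem subsAll_sound : ∀ (l : List ℕ) (skip cap : ℕ) (f : List ℕ → List ℕ → Bool)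
    (b r : Multiset ℕ), subsAll skip l cap f = true → skip ∉ b → b.sum ≤ cap →
    b + r = (l : Multiset ℕ) →
    ∃ tk rl : List ℕ, (tk : Multiset ℕ) = b ∧ (rl : Multiset ℕ) = r ∧ f tk rl = true
  | [], skip, cap, f, b, r, h, _, _, hl => by
    have h0 : b + r = 0 := by simpa using hl
    have h1 : b = 0 ∧ r = 0 := by simpa using h0
    refine ⟨[], [], by simp [h1.1], by simp [h1.2], ?_⟩
    simpa [subsAll] using h
  | x :: t, skip, cap, f, b, r, h, hs, hc, hl => by
    simp only [subsAll, Bool.and_eq_true, Bool.or_eq_true, beq_iff_eq] at h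
    obtain ⟨h1, h2⟩ := h
    by_cases hx : x ∈ b
    · obtain ⟨b', rfl⟩ := Multiset.exists_cons_of_mem hx
      have hl' : b' + r = (t : Multiset ℕ) := by
        have e : x ::ₘ (b' + r) = x ::ₘ (t : Multiset ℕ) := by
          rw [← Multiset.cons_add, hl]; rfl
        exact (Multiset.cons_inj_right x).mp e
      rw [Multiset.sum_cons] at hc
      have h1' : subsAll skip t (cap - x) (fun tk r => f (x :: tk) r) = true := by
        rcases h1 with (h1 | h1) | h1
        · exact absurd (by rw [← h1]; exact Multiset.mem_cons_self x b') hs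
        · have : cap < x := by simpa [Nat.blt_eq] using h1
          omega
        · exact h1
      obtain ⟨tk, rl, e1, e2, e3⟩ := subsAll_sound t skip (cap - x) _ b' r h1'
        (fun hh => hs (Multiset.mem_cons_of_mem hh)) (by omega) hl'
      refine ⟨x :: tk, rl, ?_, e2, e3⟩
      rw [← e1]; rfl
    · have hxr : x ∈ r := by
        have : x ∈ b + r := by rw [hl]; simp
        rcases Multiset.mem_add.mp this with h | h
        · exact absurd h hx
        · exact h
      obtain ⟨r', rfl⟩ := Multiset.exists_cons_of_mem hxr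
      have hl' : b + r' = (t : Multiset ℕ) := by
        have e : x ::ₘ (b + r') = x ::ₘ (t : Multiset ℕ) := by
          rw [← Multiset.add_cons, hl]; rfl
        exact (Multiset.cons_inj_right x).mp e
      obtain ⟨tk, rl, e1, e2, e3⟩ := subsAll_sound t x cap _ b r' h2 hx hc hl'
      refine ⟨tk, x :: rl, e1, ?_, e3⟩
      rw [← e2]; rfl

/-- Remove one token of the pattern `p`. `none`: no token is left. -/
def dec (p : List ℕ) : List (List ℕ × ℕ) → Option (List (List ℕ × ℕ))
  | [] => some []
  | (T, a) :: r =>
    if T = p then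
      (match a with
        | 0 => none
        | a' + 1 => some ((T, a') :: r))
    else (dec p r).map (fun r' => (T, a) :: r')

theorem dec_sound (p : List ℕ) (bs : Multiset (Multiset ℕ)) : ∀ (tok : List (List ℕ × ℕ)),
    (∀ q ∈ tok, Multiset.count (q.1 : Multiset ℕ) ((p : Multiset ℕ) ::ₘ bs) ≤ q.2) →
    ∃ tok', dec p tok = some tok' ∧ ∀ q ∈ tok', Multiset.count (q.1 : Multiset ℕ) bs ≤ q.2
  | [], _ => ⟨[], rfl, by simp⟩
  | (T, a) :: r, h => by
    have hT := h (T, a) (List.mem_cons_self)
    have hr : ∀ q ∈ r, Multiset.count (q.1 : Multiset ℕ) ((p : Multiset ℕ) ::ₘ bs) ≤ q.2 :=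
      fun q hq => h q (List.mem_cons_of_mem _ hq)
    have hmono : ∀ q : List ℕ × ℕ, Multiset.count (q.1 : Multiset ℕ) bs
        ≤ Multiset.count (q.1 : Multiset ℕ) ((p : Multiset ℕ) ::ₘ bs) :=
      fun q => Multiset.count_le_count_cons _ _ _
    by_cases hp : T = p
    · subst hp
      have hT' : Multiset.count (T : Multiset ℕ) bs + 1 ≤ a := by
        simpa [Multiset.count_cons_self] using hT
      obtain ⟨a', rfl⟩ : ∃ a', a = a' + 1 := ⟨a - 1, by omega⟩
      refine ⟨(T, a') :: r, by simp [dec], ?_⟩
      intro q hq
      rcases List.mem_cons.mp hq with rfl | hq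
      · show Multiset.count (T : Multiset ℕ) bs ≤ a'
        omega
      · exact le_trans (hmono q) (hr q hq)
    · obtain ⟨tok', e1, e2⟩ := dec_sound p bs r hr
      refine ⟨(T, a) :: tok', by simp [dec, hp, e1], ?_⟩
      intro q hq
      rcases List.mem_cons.mp hq with rfl | hq
      · exact le_trans (hmono _) hT
      · exact e2 q hq

/-- Certificate search: `true` means that the items `l` cannot be packed into `K` bins of capacity
`C` if bins of pattern `T` may be used at most `a` times for all `(T, a)` in `tok`. -/
def npt (C : ℕ) : ℕ → List ℕ → List (List ℕ × ℕ) → Bool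
  | 0, l, _ => !l.isEmpty
  | _ + 1, [], _ => false
  | K + 1, x :: t, tok => Nat.blt ((K + 1) * C) (x + t.sum) ||
      (Nat.blt C x || subsAll 0 t (C - x) (fun tk r => Nat.blt (K * C) r.sum ||
        (match dec (x :: tk) tok with
          | none => true
          | some tok' => npt C K r tok')))

theorem npt_sound (C : ℕ) : ∀ (K : ℕ) (l : List ℕ) (tok : List (List ℕ × ℕ)),
    (∀ x ∈ l, 0 < x) → npt C K l tok = true → ∀ bs : Multiset (Multiset ℕ),
    bs.card = K → bs.sum = (l : Multiset ℕ) → (∀ b ∈ bs, b.sum ≤ C) →
    (∀ q ∈ tok, Multiset.count (q.1 : Multiset ℕ) bs ≤ q.2) → False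
  | 0, l, tok, _, h, bs, hK, hs, _, _ => by
    have hb : bs = 0 := Multiset.card_eq_zero.mp hK
    subst hb
    have : l = [] := by
      have := hs.symm
      simpa using this
    subst this
    simp [npt] at h
  | K + 1, [], tok, _, h, _, _, _, _, _ => by simp [npt] at h
  | K + 1, x :: t, tok, hpos, h, bs, hK, hs, hc, ht => by
    have vol : ∀ (bs : Multiset (Multiset ℕ)), (∀ b ∈ bs, b.sum ≤ C) →
        bs.sum.sum ≤ bs.card * C := by
      intro bs
      induction bs using Multiset.induction_on with
      | empty => simp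
      | cons b bs ih =>
        intro hh
        rw [Multiset.sum_cons, Multiset.sum_add, Multiset.card_cons]
        have h1 := ih (fun b' hb' => hh b' (Multiset.mem_cons_of_mem hb'))
        have h2 := hh b (Multiset.mem_cons_self b bs)
        nlinarith
    have hx : x ∈ bs.sum := by rw [hs]; simp
    obtain ⟨b, hb, hxb⟩ : ∃ b ∈ bs, x ∈ b := by
      have : x ∈ Multiset.join bs := hx
      rw [Multiset.mem_join] at this
      obtain ⟨b, h1, h2⟩ := this
      exact ⟨b, h1, h2⟩
    obtain ⟨bs', rfl⟩ := Multiset.exists_cons_of_mem hb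
    obtain ⟨b', rfl⟩ := Multiset.exists_cons_of_mem hxb
    have hK' : bs'.card = K := by
      rw [Multiset.card_cons] at hK; omega
    have hbs' : ∀ b ∈ bs', b.sum ≤ C := fun b hb => hc b (Multiset.mem_cons_of_mem hb)
    have hbx : x + b'.sum ≤ C := by
      have := hc _ (Multiset.mem_cons_self (x ::ₘ b') bs')
      rwa [Multiset.sum_cons] at this
    have hl' : b' + bs'.sum = (t : Multiset ℕ) := by
      have e : x ::ₘ (b' + bs'.sum) = x ::ₘ (t : Multiset ℕ) := by
        rw [← Multiset.cons_add, ← Multiset.sum_cons, hs]; rfl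
      exact (Multiset.cons_inj_right x).mp e
    have hsum : x + t.sum ≤ (K + 1) * C := by
      have h1 := vol _ hc
      rw [hs, Multiset.card_cons, hK'] at h1
      simpa using h1
    simp only [npt, Bool.or_eq_true] at h
    rcases h with h | h | h
    · have : (K + 1) * C < x + t.sum := by simpa [Nat.blt_eq] using h
      omega
    · have : C < x := by simpa [Nat.blt_eq] using h
      omega
    · have h0b : (0 : ℕ) ∉ b' := by
        intro h0
        have : (0 : ℕ) ∈ (t : Multiset ℕ) := by
          rw [← hl']; exact Multiset.mem_add.mpr (Or.inl h0)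
        have h2 := hpos 0 (List.mem_cons_of_mem _ (by simpa using this))
        omega
      obtain ⟨tk, rl, e1, e2, e3⟩ := subsAll_sound t 0 (C - x) _ b' bs'.sum h h0b (by omega) hl'
      simp only [Bool.or_eq_true] at e3
      have hrl : ∀ y ∈ rl, 0 < y := by
        intro y hy
        apply hpos
        apply List.mem_cons_of_mem
        have : y ∈ (t : Multiset ℕ) := by
          rw [← hl', ← e2]; exact Multiset.mem_add.mpr (Or.inr (by simpa using hy))
        simpa using this
      rcases e3 with e3 | e3
      · have h1 : K * C < rl.sum := by simpa [Nat.blt_eq] using e3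
        have h2 := vol _ hbs'
        rw [← e2, hK'] at h2
        have h3 : rl.sum ≤ K * C := by simpa using h2
        omega
      · have ht' : ∀ q ∈ tok, Multiset.count (q.1 : Multiset ℕ)
            (((x :: tk : List ℕ) : Multiset ℕ) ::ₘ bs') ≤ q.2 := by
          intro q hq
          have h1 := ht q hq
          have e : ((x :: tk : List ℕ) : Multiset ℕ) = x ::ₘ b' := by rw [← e1]; rfl
          rw [e]; exact h1
        obtain ⟨tok', f1, f2⟩ := dec_sound (x :: tk) bs' tok ht'
        rw [f1] at e3
        exact npt_sound C K rl tok' hrl e3 bs' hK' e2.symm hbs' f2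

end Vale.Agent.Lib.P302
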